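import Vale.Agent.P223.MathlibUsed
import Mathlib.Analysis.SpecialFunctions.Pow.Real
import Mathlib.Topology.Algebra.Order.Field

/-! Finite time version of the energy argument: elementary lemmas about real sequences. -/

namespace Vale.Agent.P223.H399

open Filter Topology

theorem pow_sub_le (m : ℕ) {x y : ℝ} (hx : 0 ≤ x) (hxy : x ≤ y) :
    y ^ (m + 1) - x ^ (m + 1) ≤ (m + 1) * y ^ m * (y - x) := by
  have hy : 0 ≤ y := hx.trans hxy
  induction m with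
  | zero => simp
  | succ m ih =>
    have e : y ^ (m + 1 + 1) - x ^ (m + 1 + 1) =
        y * (y ^ (m + 1) - x ^ (m + 1)) + x ^ (m + 1) * (y - x) := by ring
    rw [e]
    have h1 : y * (y ^ (m + 1) - x ^ (m + 1)) ≤ y * ((m + 1) * y ^ m * (y - x)) := by gcongr
    have h2 : x ^ (m + 1) * (y - x) ≤ y ^ (m + 1) * (y - x) := by
      have : 0 ≤ y - x := by linarith
      gcongr
    push_cast
    calc _ ≤ y * ((m + 1) * y ^ m * (y - x)) + y ^ (m + 1) * (y - x) := add_le_add h1 h2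
      _ = _ := by ring

/-- lower bound of a Riemann sum -/
theorem sum_ge (m : ℕ) {h : ℝ} (hh : 0 ≤ h) (k : ℕ) :
    ((k : ℝ) * h) ^ (m + 1) / (m + 1) ≤ ∑ j ∈ Finset.range (k + 1), h * ((j : ℝ) * h) ^ m := by
  induction k with
  | zero =>
    simp only [Nat.cast_zero, zero_mul, zero_add, Finset.range_one, Finset.sum_singleton]
    rw [zero_pow (by omega), zero_div]
    positivity
  | succ k ih =>
    rw [Finset.sum_range_succ]
    have h1 := pow_sub_le m (x := (k : ℝ) * h) (y := ((k + 1 : ℕ) : ℝ) * h) (by positivity)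
      (by push_cast; nlinarith)
    have h2 : ((k + 1 : ℕ) : ℝ) * h - (k : ℝ) * h = h := by push_cast; ring
    rw [h2] at h1
    have hm : (0 : ℝ) < (m : ℝ) + 1 := by positivity
    have h3 : (((k + 1 : ℕ) : ℝ) * h) ^ (m + 1) / (m + 1) ≤
        ((k : ℝ) * h) ^ (m + 1) / (m + 1) + h * (((k + 1 : ℕ) : ℝ) * h) ^ m := by
      rw [div_le_iff₀ hm, add_mul, div_mul_cancel₀ _ hm.ne']
      linarith
    linarith

/-- a good time -/
theorem pickT {K m : ℕ} {Y P E : ℕ → ℝ} {h c₁ θ R D δ : ℝ} (hK : 1 ≤ K) (hh : 0 < h)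
    (hc₁ : 0 < c₁) (hR : 0 ≤ R)
    (h1 : ∀ k < K, c₁ * h * (Y k - P k - δ / 2) ≤ E k - E (k + 1))
    (h2 : ∀ k ≤ K, 0 ≤ E k)
    (h3 : ∀ k < K, (m + 1) * (k * h) ^ m * E k ≤ θ * c₁ * (k * h) ^ (m + 1) * Y k + R)
    (hD : 0 ≤ D) (hδ : 0 < δ)
    (h4 : R * (K * h) < c₁ * (D + δ / 2) * (((K : ℝ) - 1) * h) ^ (m + 2) / (m + 2)) :
    ∃ k < K, (1 - θ) * Y k ≤ P k + D + δ := by
  by_contra hcon
  push Not at hcon
  have claim : ∀ j, j < K → (∑ i ∈ Finset.range (j + 1), h * ((i : ℝ) * h) ^ (m + 1)) *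
      (c₁ * (D + δ / 2)) + (j * h) ^ (m + 1) * E (j + 1) ≤ R * ((j + 1) * h) := by
    intro j
    induction j with
    | zero =>
      intro _
      simp only [Nat.cast_zero, zero_mul, zero_add, Finset.range_one, Finset.sum_singleton]
      rw [zero_pow (by omega)]
      have : 0 ≤ R * h := by positivity
      simpa using this
    | succ j ih =>
      intro hj
      have ih' := ih (by omega)
      rw [Finset.sum_range_succ]
      have i1 := h1 (j + 1) hj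
      have i2 := h2 (j + 1) hj.le
      have i3 := h3 (j + 1) hj
      have i4 := hcon (j + 1) hj
      have hw : (0 : ℝ) ≤ (((j + 1 : ℕ) : ℝ) * h) ^ (m + 1) := by positivity
      have i5 := pow_sub_le m (x := (j : ℝ) * h) (y := ((j + 1 : ℕ) : ℝ) * h) (by positivity)
        (by push_cast; nlinarith)
      have e2 : ((j + 1 : ℕ) : ℝ) * h - (j : ℝ) * h = h := by push_cast; ring
      rw [e2] at i5
      set w := (((j + 1 : ℕ) : ℝ) * h) ^ (m + 1) with hwd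
      set w0 := ((j : ℝ) * h) ^ (m + 1) with hw0
      have i6 : w * (c₁ * h * (D + δ / 2)) ≤
          w * (c₁ * h * ((1 - θ) * Y (j + 1) - P (j + 1) - δ / 2)) := by
        have : D + δ / 2 ≤ (1 - θ) * Y (j + 1) - P (j + 1) - δ / 2 := by linarith
        gcongr
      have i7 : w * (c₁ * h * (Y (j + 1) - P (j + 1) - δ / 2)) ≤ w * (E (j + 1) - E (j + 1 + 1)) :=
        mul_le_mul_of_nonneg_left i1 hw
      have i8 : (w - w0) * E (j + 1) ≤ ((m + 1) * (((j + 1 : ℕ) : ℝ) * h) ^ m * h) * E (j + 1) :=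
        mul_le_mul_of_nonneg_right i5 i2
      have i9 := mul_le_mul_of_nonneg_left i3 hh.le
      have e3 : R * (((j + 1 : ℕ) : ℝ) + 1) * h = R * (((j : ℝ) + 1) * h) + R * h := by
        push_cast; ring
      have e4 : R * ((((j + 1 : ℕ) : ℝ) + 1) * h) = R * (((j : ℝ) + 1) * h) + R * h := by
        push_cast; ring
      rw [e4]
      calc (∑ i ∈ Finset.range (j + 1), h * ((i : ℝ) * h) ^ (m + 1) + h * w) *
            (c₁ * (D + δ / 2)) + w * E (j + 1 + 1)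
          = (∑ i ∈ Finset.range (j + 1), h * ((i : ℝ) * h) ^ (m + 1)) * (c₁ * (D + δ / 2)) +
            w * (c₁ * h * (D + δ / 2)) + w * E (j + 1 + 1) := by ring
        _ ≤ (∑ i ∈ Finset.range (j + 1), h * ((i : ℝ) * h) ^ (m + 1)) * (c₁ * (D + δ / 2)) +
            w * (c₁ * h * ((1 - θ) * Y (j + 1) - P (j + 1) - δ / 2)) + w * E (j + 1 + 1) := by
            gcongr
        _ = (∑ i ∈ Finset.range (j + 1), h * ((i : ℝ) * h) ^ (m + 1)) * (c₁ * (D + δ / 2)) +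
            w * (c₁ * h * (Y (j + 1) - P (j + 1) - δ / 2)) + w * E (j + 1 + 1) -
            h * (θ * c₁ * w * Y (j + 1)) := by ring
        _ ≤ (∑ i ∈ Finset.range (j + 1), h * ((i : ℝ) * h) ^ (m + 1)) * (c₁ * (D + δ / 2)) +
            w * E (j + 1) - h * (θ * c₁ * w * Y (j + 1)) := by linarith
        _ = ((∑ i ∈ Finset.range (j + 1), h * ((i : ℝ) * h) ^ (m + 1)) * (c₁ * (D + δ / 2)) +
            w0 * E (j + 1)) + (w - w0) * E (j + 1) - h * (θ * c₁ * w * Y (j + 1)) := by ring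
        _ ≤ R * (((j : ℝ) + 1) * h) + R * h := by
            have : h * ((m + 1) * (((j + 1 : ℕ) : ℝ) * h) ^ m * E (j + 1)) =
              ((m + 1) * (((j + 1 : ℕ) : ℝ) * h) ^ m * h) * E (j + 1) := by ring
            linarith
  obtain ⟨k, rfl⟩ : ∃ k, K = k + 1 := ⟨K - 1, by omega⟩
  have c1 := claim k (by omega)
  have c2 := sum_ge (m + 1) hh.le k
  have c3 : 0 ≤ ((k : ℝ) * h) ^ (m + 1) * E (k + 1) := mul_nonneg (by positivity) (h2 _ le_rfl)
  have c4 : (((k + 1 : ℕ) : ℝ) - 1) * h = k * h := by push_cast; ring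
  rw [c4] at h4
  have c5 : ((k : ℝ) * h) ^ (m + 1 + 1) / (((m + 1 : ℕ) : ℝ) + 1) * (c₁ * (D + δ / 2)) ≤
      (∑ i ∈ Finset.range (k + 1), h * ((i : ℝ) * h) ^ (m + 1)) * (c₁ * (D + δ / 2)) := by
    have : 0 ≤ c₁ * (D + δ / 2) := by positivity
    gcongr
  have c6 : ((k : ℝ) * h) ^ (m + 1 + 1) / (((m + 1 : ℕ) : ℝ) + 1) * (c₁ * (D + δ / 2)) =
      c₁ * (D + δ / 2) * ((k : ℝ) * h) ^ (m + 2) / (m + 2) := by
    push_cast
    have : (m : ℝ) + 1 + 1 = m + 2 := by ring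
    rw [this]
    ring
  have c7 : R * (((k + 1 : ℕ) : ℝ) * h) = R * (((k : ℝ) + 1) * h) := by push_cast; ring
  rw [c7] at h4
  linarith

/-- Young's inequality with powers of the time -/
theorem young {m : ℕ} {a c₁ θ τ s : ℝ} (ha : 1 ≤ a) (hm : (m : ℝ) + 1 = 2 * a) (hc₁ : 0 < c₁)
    (hθ : 0 < θ) (hτ : 0 ≤ τ) (hs : 0 ≤ s) :
    (m + 1) * τ ^ m * s ^ a ≤ θ * c₁ * τ ^ (m + 1) * s ^ (a + 1) +
      2 * a * (2 * a / (θ * c₁)) ^ a * τ ^ (a - 1) := by
  have ha0 : 0 < a := by linarith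
  have hm1 : m ≠ 0 := by
    rintro rfl
    norm_num at hm
    linarith
  rw [hm]
  rcases hτ.eq_or_lt with rfl | hτ
  · rw [zero_pow hm1, zero_pow (by omega)]
    have : (0 : ℝ) ≤ 0 ^ (a - 1) := Real.rpow_nonneg le_rfl _
    simp only [mul_zero, zero_mul, zero_add]
    positivity
  by_cases h : 2 * a ≤ θ * c₁ * (τ * s)
  · have e : θ * c₁ * τ ^ (m + 1) * s ^ (a + 1) = (θ * c₁ * (τ * s)) * (τ ^ m * s ^ a) := by
      rw [Real.rpow_add_one' hs (by linarith), pow_succ]; ring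
    rw [e]
    have h1 : 2 * a * (τ ^ m * s ^ a) ≤ θ * c₁ * (τ * s) * (τ ^ m * s ^ a) := by gcongr
    have h2 : 0 ≤ 2 * a * (2 * a / (θ * c₁)) ^ a * τ ^ (a - 1) := by positivity
    linarith
  · push Not at h
    have h1 : τ * s ≤ 2 * a / (θ * c₁) := by
      rw [le_div_iff₀ (by positivity)]
      linarith
    have h2 : (τ * s) ^ a ≤ (2 * a / (θ * c₁)) ^ a :=
      Real.rpow_le_rpow (by positivity) h1 ha0.le
    have h3 : τ ^ m = τ ^ (a - 1) * τ ^ a := by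
      rw [← Real.rpow_add hτ, ← Real.rpow_natCast]
      congr 1
      linarith
    have h4 : 0 ≤ θ * c₁ * τ ^ (m + 1) * s ^ (a + 1) := by positivity
    calc 2 * a * τ ^ m * s ^ a = 2 * a * (τ * s) ^ a * τ ^ (a - 1) := by
          rw [h3, Real.mul_rpow hτ.le hs]; ring
      _ ≤ 2 * a * (2 * a / (θ * c₁)) ^ a * τ ^ (a - 1) := by gcongr
      _ ≤ _ := by linarith

/-- a good step size -/
theorem small_step {c₁ D δ T R : ℝ} (m : ℕ) (hc₁ : 0 < c₁) (hδ : 0 < δ) (hT : 0 < T)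
    (hR : R * T = c₁ * D * T ^ (m + 2) / (m + 2)) :
    ∃ h₀ : ℝ, 0 < h₀ ∧ ∀ h, 0 < h → h < h₀ → 2 * h ≤ T ∧
      R * T < c₁ * (D + δ / 2) * (T - 2 * h) ^ (m + 2) / (m + 2) := by
  have hcont : Continuous fun h : ℝ => c₁ * (D + δ / 2) * (T - 2 * h) ^ (m + 2) / (m + 2) := by
    fun_prop
  have h0 : R * T < c₁ * (D + δ / 2) * (T - 2 * 0) ^ (m + 2) / (m + 2) := by
    rw [hR, mul_zero, sub_zero]
    have : 0 < c₁ * (δ / 2) * T ^ (m + 2) / (m + 2) := by positivity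
    have e : c₁ * (D + δ / 2) * T ^ (m + 2) / (m + 2) =
      c₁ * D * T ^ (m + 2) / (m + 2) + c₁ * (δ / 2) * T ^ (m + 2) / (m + 2) := by ring
    rw [e]; linarith
  have h1 : ∀ᶠ h in 𝓝 (0 : ℝ), R * T < c₁ * (D + δ / 2) * (T - 2 * h) ^ (m + 2) / (m + 2) :=
    hcont.continuousAt.eventually (lt_mem_nhds h0)
  obtain ⟨e, he, h2⟩ := Metric.eventually_nhds_iff.1 h1
  refine ⟨min e (T / 2), by positivity, fun h hh hlt => ⟨?_, h2 ?_⟩⟩
  · have := lt_of_lt_of_le hlt (min_le_right _ _)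
    linarith
  · rw [Real.dist_eq, sub_zero, abs_of_pos hh]
    exact lt_of_lt_of_le hlt (min_le_left _ _)

/-- choice of `ε` -/
theorem choose_eps {c₀ c₁ δ C₁ V h₀ : ℝ} (hc₀ : 0 < c₀) (hc₁ : 0 < c₁) (hδ : 0 < δ)
    (hC₁ : 0 < C₁) (hV : 0 ≤ V) (hh₀ : 0 < h₀) :
    ∃ ε : ℝ, 0 < ε ∧ ε ≤ 1 ∧ c₀ * ε ^ 2 < h₀ ∧ C₁ * ε * V / c₀ ≤ c₁ * δ / 8 := by
  set e := min (min 1 (h₀ / (c₀ + 1))) (c₁ * δ * c₀ / (8 * (C₁ * V + 1))) with he
  have h0 : 0 < e := by positivity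
  have h1 : e ≤ 1 := (min_le_left _ _).trans (min_le_left _ _)
  have h2 : e ≤ h₀ / (c₀ + 1) := (min_le_left _ _).trans (min_le_right _ _)
  have h3 : e ≤ c₁ * δ * c₀ / (8 * (C₁ * V + 1)) := min_le_right _ _
  refine ⟨e, h0, h1, ?_, ?_⟩
  · calc c₀ * e ^ 2 = c₀ * e * e := by ring
      _ ≤ c₀ * e * 1 := by gcongr
      _ ≤ c₀ * (h₀ / (c₀ + 1)) * 1 := by gcongr
      _ < h₀ := by
        rw [mul_one, mul_div_assoc', div_lt_iff₀ (by positivity)]
        nlinarith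
  · rw [div_le_iff₀ hc₀]
    calc C₁ * e * V = (C₁ * V) * e := by ring
      _ ≤ (C₁ * V + 1) * (c₁ * δ * c₀ / (8 * (C₁ * V + 1))) := by
          gcongr
          linarith
      _ = _ := by field_simp

/-- number of steps -/
theorem steps {T h : ℝ} (hT : 2 * h ≤ T) (hh : 0 < h) :
    ∃ K : ℕ, 1 ≤ K ∧ (∀ k ≤ K, (k : ℝ) * h ≤ T) ∧ T - 2 * h ≤ ((K : ℝ) - 1) * h := by
  have h0 : 0 ≤ T / h := by
    have : 0 < T := by linarith
    positivity
  have h1 : (⌊T / h⌋₊ : ℝ) ≤ T / h := Nat.floor_le h0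
  have h2 : T / h < ⌊T / h⌋₊ + 1 := Nat.lt_floor_add_one _
  rw [le_div_iff₀ hh] at h1
  rw [div_lt_iff₀ hh] at h2
  refine ⟨⌊T / h⌋₊, ?_, fun k hk => ?_, ?_⟩
  · refine Nat.le_floor ?_
    rw [Nat.cast_one, le_div_iff₀ hh]
    linarith
  · have : (k : ℝ) ≤ ⌊T / h⌋₊ := by exact_mod_cast hk
    nlinarith
  · nlinarith

end Vale.Agent.P223.H399
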