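import Vale.Agent.P223.X.X11
import Vale.Agent.P223.H399.Seq

/-! The main analytic estimate on a finite time interval. -/

namespace Vale.Agent.P223.H399

open scoped ContDiff Topology Matrix ENNReal
open MeasureTheory Filter Vale.Agent.P223.X Vale.Agent.P223.H Vale.Agent.P223.H.B5a
  Vale.Agent.P223.H.B5b Vale.Agent.P223.H.B5c Vale.Agent.P223.X.X11

section
variable {n : ℕ} {M X Γ I : Type} [TopologicalSpace M] [TopologicalSpace X] [Group Γ]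
    [MulAction Γ X] {C : Cov n M X Γ I} {g g' : I → E n → Matrix (Fin n) (Fin n) ℝ}
    {W v : X → ℝ} {A η : ℝ}
    [MeasurableSpace X] [MeasurableSpace M] [BorelSpace X] {μ : Measure X} {ν : Measure M}

omit [MeasurableSpace M] in
/-- the integrated form of Young's inequality -/
theorem young_int (hA : 0 < A) (hη : 0 < η) (hη1 : η ≤ 1) (hM : MetX C g) (hW : WtX C g μ W)
    (hS : StX C g W A v) {a θ c₁ τ T V : ℝ} {m : ℕ} (ha : 1 ≤ a) (hm : (m : ℝ) + 1 = 2 * a)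
    (hc₁ : 0 < c₁) (hθ : 0 < θ) (hτ : 0 ≤ τ) (hτT : τ ≤ T) (hV : ∫ x, v x * 1 ∂μ ≤ V) :
    (m + 1) * τ ^ m * ∫ x, eX C g a η v x ∂μ ≤ θ * c₁ * τ ^ (m + 1) *
      (∫ x, v x * (gsX C g v x / v x ^ 2 + η) ^ (a + 1) ∂μ) +
      2 * a * (2 * a / (θ * c₁)) ^ a * T ^ (a - 1) * V := by
  have hvk := vpos hA hW hS
  have j1 := vs hA hη hη1 hM hW hS (p := a + 1) (by linarith)
  have j2 : Integrable (fun x => eX C g a η v x) μ :=
    vs hA hη hη1 hM hW hS (p := a) (by linarith)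
  have j3 : Integrable (fun x => v x * 1) μ :=
    vrho hA hW hS (continuous_const (y := (1 : ℝ))) (m := 1) (fun _ => by simp)
  have h1 : (m + 1) * τ ^ m * ∫ x, eX C g a η v x ∂μ ≤
      ∫ x, (θ * c₁ * τ ^ (m + 1) * (v x * (gsX C g v x / v x ^ 2 + η) ^ (a + 1)) +
        2 * a * (2 * a / (θ * c₁)) ^ a * τ ^ (a - 1) * (v x * 1)) ∂μ := by
    rw [← integral_const_mul]
    refine integral_mono (j2.const_mul _) ((j1.const_mul _).add (j3.const_mul _)) fun x => ?_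
    have h2 := young (s := gsX C g v x / v x ^ 2 + η) ha hm hc₁ hθ hτ (s_pos hM hvk hη x).le
    have h3 := mul_le_mul_of_nonneg_left h2 (hvk x).le
    refine le_trans (le_of_eq ?_) (h3.trans (le_of_eq ?_))
    · simp only [eX]; ring
    · ring
  rw [integral_add (j1.const_mul _) (j3.const_mul _), integral_const_mul,
    integral_const_mul] at h1
  refine h1.trans (add_le_add le_rfl ?_)
  have h4 : τ ^ (a - 1) ≤ T ^ (a - 1) := Real.rpow_le_rpow hτ hτT (by linarith)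
  have h5 : 0 ≤ 2 * a * (2 * a / (θ * c₁)) ^ a := by positivity
  have h6 : 0 ≤ ∫ x, v x * 1 ∂μ := integral_nonneg fun x => by simpa using (hvk x).le
  have h7 : 0 ≤ T ^ (a - 1) := Real.rpow_nonneg (hτ.trans hτT) _
  calc 2 * a * (2 * a / (θ * c₁)) ^ a * τ ^ (a - 1) * ∫ x, v x * 1 ∂μ
      ≤ 2 * a * (2 * a / (θ * c₁)) ^ a * T ^ (a - 1) * ∫ x, v x * 1 ∂μ := by gcongr
    _ ≤ _ := by gcongr

/-- the conclusion, for a good time -/
theorem concl (hU : UF C μ ν) (hA : 0 < A) (hη : 0 < η) (hη1 : η ≤ 1) (hM : MetX C g)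
    (hW : WtX C g μ W) (hS : StX C g W A v) {q : M → ℝ} {κ δ a θ D : ℝ} (hκ : 0 < κ)
    (hδ : 0 < δ) (ha : 1 ≤ a) (ha1 : a + 1 = (n : ℝ) / 2) (hqc : Continuous q)
    (hq0 : ∀ x, 0 ≤ q x) (hθ : θ < 1) (hD : 0 ≤ D)
    (hqint : Integrable (fun x => v x * q (C.π x) ^ ((n : ℝ) / 2)) μ)
    (hY : (1 - θ) * ∫ x, v x * (gsX C g v x / v x ^ 2 + η) ^ (a + 1) ∂μ ≤
      κ ^ n * (∫ x, v x * q (C.π x) ^ ((n : ℝ) / 2) ∂μ) + D + δ) {B : ENNReal}
    (hB : ∫⁻ m, ENNReal.ofReal (q m ^ ((n : ℝ) / 2)) ∂ν ≤ B) :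
    ENNReal.ofReal (1 - θ) *
      ∫⁻ x, ENNReal.ofReal (v x * (gsX C g v x / v x ^ 2) ^ ((n : ℝ) / 2)) ∂μ ≤
      ENNReal.ofReal (κ ^ n) * B + ENNReal.ofReal D + ENNReal.ofReal δ := by
  have hvk := vpos hA hW hS
  have hp0 : (0 : ℝ) ≤ (n : ℝ) / 2 := by positivity
  have hPc : Continuous fun x => q x ^ ((n : ℝ) / 2) := hqc.rpow_const fun x => Or.inr hp0
  have f1 : ∫⁻ x, ENNReal.ofReal (v x * (gsX C g v x / v x ^ 2) ^ ((n : ℝ) / 2)) ∂μ ≤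
      ENNReal.ofReal (∫ x, v x * (gsX C g v x / v x ^ 2 + η) ^ (a + 1) ∂μ) := by
    rw [ofReal_integral_eq_lintegral_ofReal (vs hA hη hη1 hM hW hS (by linarith))
      (Eventually.of_forall fun x => by
        have h1 := hvk x
        have h3 := s_pos hM hvk hη x
        simp only [Pi.zero_apply]; positivity)]
    refine lintegral_mono fun x => ENNReal.ofReal_le_ofReal ?_
    have h1 := hvk x
    have h3 := gsX_nonneg hM v x
    rw [ha1]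
    gcongr
    linarith
  have hnn : ∀ x, 0 ≤ v x * q (C.π x) ^ ((n : ℝ) / 2) := fun x => by
    have h1 := hvk x
    have h3 := hq0 (C.π x)
    positivity
  have f2 : ENNReal.ofReal (∫ x, v x * q (C.π x) ^ ((n : ℝ) / 2) ∂μ) ≤ B := by
    refine le_trans ?_ hB
    rw [ofReal_integral_eq_lintegral_ofReal hqint (Eventually.of_forall hnn)]
    exact (unf hU (ck_cont hS.smooth) (fun x => (hvk x).le) hS.sum hPc
      (fun x => Real.rpow_nonneg (hq0 _) _)).le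
  have hPk0 : 0 ≤ ∫ x, v x * q (C.π x) ^ ((n : ℝ) / 2) ∂μ := integral_nonneg hnn
  calc _ ≤ ENNReal.ofReal (1 - θ) *
        ENNReal.ofReal (∫ x, v x * (gsX C g v x / v x ^ 2 + η) ^ (a + 1) ∂μ) := by gcongr
    _ = ENNReal.ofReal ((1 - θ) * ∫ x, v x * (gsX C g v x / v x ^ 2 + η) ^ (a + 1) ∂μ) := by
        rw [ENNReal.ofReal_mul (by linarith)]
    _ ≤ ENNReal.ofReal (κ ^ n * (∫ x, v x * q (C.π x) ^ ((n : ℝ) / 2) ∂μ) + D + δ) :=
        ENNReal.ofReal_le_ofReal hY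
    _ = ENNReal.ofReal (κ ^ n) *
          ENNReal.ofReal (∫ x, v x * q (C.π x) ^ ((n : ℝ) / 2) ∂μ) + ENNReal.ofReal D +
          ENNReal.ofReal δ := by
        rw [ENNReal.ofReal_add (by positivity) hδ.le, ENNReal.ofReal_add (by positivity) hD,
          ENNReal.ofReal_mul (by positivity)]
    _ ≤ _ := by gcongr

end

/-- the constant -/
theorem const_eq {n m : ℕ} {a κ c₁ θ T V D R : ℝ} (ha : 1 ≤ a) (ha1 : a + 1 = (n : ℝ) / 2)
    (hm : (m : ℝ) + 1 = 2 * a) (hκ : 0 < κ) (hθ : 0 < θ) (hT : 0 < T)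
    (hc₁ : c₁ = 2 * a / (κ ^ 2 * (a + 1)))
    (hR : R = 2 * a * (2 * a / (θ * c₁)) ^ a * T ^ (a - 1) * V)
    (hD : D = ((n : ℝ) - 1) * θ * (n * κ ^ 2 / (2 * θ * T)) ^ ((n : ℝ) / 2) * V) :
    R * T = c₁ * D * T ^ (m + 2) / (m + 2) := by
  have ha0 : 0 < a := by linarith
  have hn : (n : ℝ) = 2 * (a + 1) := by linarith
  have hn1 : (n : ℝ) - 1 = m + 2 := by linarith
  have hm2 : (0 : ℝ) < m + 2 := by positivity
  have e1 : 2 * a / (θ * c₁) = n * κ ^ 2 / (2 * θ) := by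
    rw [hc₁, hn]; field_simp
  have e2 : n * κ ^ 2 / (2 * θ * T) = n * κ ^ 2 / (2 * θ) / T := by
    field_simp
  have hz : 0 < n * κ ^ 2 / (2 * θ) := by rw [hn]; positivity
  rw [hR, hD, hn1, e1, e2, ← ha1, Real.div_rpow hz.le hT.le, Real.rpow_add_one hz.ne']
  set z := (n : ℝ) * κ ^ 2 / (2 * θ) with hzd
  have e3 : T ^ (m + 2) = T ^ (a - 1) * T * T ^ (a + 1) := by
    rw [← Real.rpow_add_one hT.ne', ← Real.rpow_add hT, ← Real.rpow_natCast]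
    congr 1
    push_cast
    linarith
  have e4 : c₁ * θ * z = 2 * a := by
    rw [hc₁, hzd, hn]; field_simp
  have hTa : T ^ (a + 1) ≠ 0 := (Real.rpow_pos_of_pos hT _).ne'
  rw [e3]
  field_simp
  rw [← e4]
  ring

/-- Main analytic estimate. -/
theorem main (hflow : SpecFlX) (hequiv : SpecEqX) (hTT : SpecTTX) (hibp : SpecIBPX)
    (hvol : SpecVol) (hboch : SpecBochnerT)
    (n : ℕ) (M X Γ I : Type) [TopologicalSpace M] [TopologicalSpace X]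
    [Group Γ] [MulAction Γ X] [Fintype I] [T2Space X] [ConnectedSpace X] [T2Space M]
    [MeasurableSpace X] [BorelSpace X] [MeasurableSpace M] [BorelSpace M] (C : Cov n M X Γ I)
    (G : ℝ → I → E n → Matrix (Fin n) (Fin n) ℝ) (hn : 4 ≤ n) (hG : FamX C G)
    (T : ℝ) (hT0 : 0 < T) (ρ σ : ℝ → M → ℝ) (hρ : Continuous (fun p : ℝ × M => ρ p.1 p.2))
    (hσ : Continuous (fun p : ℝ × M => σ p.1 p.2))
    (hric : ∀ t, 0 ≤ t → t ≤ T → ∀ i (y w : E n),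
      -ρ t (C.π (C.ψ i y)) * ∑ a, ∑ b, w a * w b * G t i y a b ≤
      ∑ a, ∑ b, w a * w b * (ric (G t i) y a b + 1 / 2 * dtG (fun s => G s i) t y a b))
    (htr : ∀ t, 0 ≤ t → t ≤ T → ∀ i y, trh (fun s => G s i) t y ≤ σ t (C.π (C.ψ i y)))
    (ν : ℝ → Measure M) (hν : ∀ t, 0 ≤ t → t ≤ T → VolM C (G t) (ν t)) (B : ENNReal)
    (hB : ∀ t, 0 ≤ t → t ≤ T →
      ∫⁻ m, ENNReal.ofReal (max 0 (ρ t m + σ t m / ((n : ℝ) - 2)) ^ ((n : ℝ) / 2)) ∂(ν t) ≤ B)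
    (V : ℝ) (hV : 0 ≤ V) (hVν : ∀ t, 0 ≤ t → t ≤ T → ν t Set.univ ≤ ENNReal.ofReal V)
    (θ : ℝ) (hθ : 0 < θ) (hθ1 : θ < 1) (δ : ℝ) (hδ : 0 < δ) :
    ∃ (t : ℝ) (μ : Measure X) (W v : X → ℝ) (A : ℝ), 0 ≤ t ∧ t ≤ T ∧ VolX C (G t) μ ∧
      WtX C (G t) μ W ∧ StX C (G t) W A v ∧ ENNReal.ofReal (1 - θ) *
      ∫⁻ x, ENNReal.ofReal (v x * (gsX C (G t) v x / v x ^ 2) ^ ((n : ℝ) / 2)) ∂μ ≤
        ENNReal.ofReal (((n : ℝ) - 2 + √n) ^ n) * B +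
        ENNReal.ofReal (((n : ℝ) - 1) * θ * (n * ((n : ℝ) - 2 + √n) ^ 2 / (2 * θ * T)) ^
          ((n : ℝ) / 2) * V) + ENNReal.ofReal δ := by
  have hcount : Countable Γ := (hvol n M X Γ I C (G 0) (hG.met 0)).1
  have hM0 : ∀ t, ∃ μ : Measure X, VolX C (G t) μ ∧ CV C (G t) μ ∧
      ∀ ν : Measure M, VolM C (G t) ν → UF C μ ν := fun t => by
    obtain ⟨-, ⟨μ, hμ⟩, -, h1, -⟩ := hvol n M X Γ I C (G t) (hG.met t)
    exact ⟨μ, hμ, (h1 μ hμ).1, (h1 μ hμ).2⟩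
  choose μ hμ hcv hUF using hM0
  obtain ⟨W, hWt', hflow⟩ := hflow n M X Γ I C G hG
  have hWt : ∀ t, 0 ≤ t → WtX C (G t) (μ t) W := fun t ht => hWt' t _ ht (hμ t)
  have hcM : CompactSpace M := compM C
  have hn4 : (4 : ℝ) ≤ n := by exact_mod_cast hn
  obtain ⟨a, ha'⟩ : ∃ a : ℝ, a = ((n : ℝ) - 2) / 2 := ⟨_, rfl⟩
  have ha : 1 ≤ a := by rw [ha']; linarith
  have ha1 : a + 1 = (n : ℝ) / 2 := by rw [ha']; ring
  have ha2 : 2 * a = (n : ℝ) - 2 := by rw [ha']; ring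
  obtain ⟨m, hmn⟩ : ∃ m : ℕ, n = m + 3 := ⟨n - 3, by omega⟩
  have hm : (m : ℝ) + 1 = 2 * a := by rw [ha2, hmn]; push_cast; ring
  obtain ⟨κ, hκ'⟩ : ∃ κ : ℝ, κ = √n + 2 * a := ⟨_, rfl⟩
  have hκ : 0 < κ := by rw [hκ']; positivity
  have hκn : (n : ℝ) - 2 + √n = κ := by rw [hκ', ha']; ring
  obtain ⟨c₁, hc₁'⟩ : ∃ c₁ : ℝ, c₁ = 2 * a / (κ ^ 2 * (a + 1)) := ⟨_, rfl⟩
  have hc₁ : 0 < c₁ := by rw [hc₁']; positivity
  -- the constants of the finite time argument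
  obtain ⟨R₀, hR₀⟩ : ∃ R₀ : ℝ, R₀ = 2 * a * (2 * a / (θ * c₁)) ^ a * T ^ (a - 1) * V := ⟨_, rfl⟩
  obtain ⟨D, hD⟩ : ∃ D : ℝ, D = ((n : ℝ) - 1) * θ * (n * κ ^ 2 / (2 * θ * T)) ^ ((n : ℝ) / 2) *
    V := ⟨_, rfl⟩
  have hR₀0 : 0 ≤ R₀ := by rw [hR₀]; positivity
  have hD0 : 0 ≤ D := by
    rw [hD]
    have : 0 ≤ (n : ℝ) - 1 := by linarith
    positivity
  obtain ⟨h₀, hh₀, hsm⟩ := small_step (D := D) m hc₁ hδ hT0
    (const_eq ha ha1 hm hκ hθ hT0 hc₁' hR₀ hD)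
  obtain ⟨c₀, A, hc₀, hA, hflow⟩ := hflow T hT0
  obtain ⟨R, hR, hRb⟩ := boundedT hρ T
  obtain ⟨S, hS, hSb⟩ := boundedT hσ T
  obtain ⟨L, Vb, hL1, hVb0, hLg, hVt⟩ := equivT hequiv hG hμ hcv hWt hT0
  obtain ⟨qf, hqf⟩ : ∃ qf : ℝ → M → ℝ, ∀ t x, qf t x = max 0 (ρ t x + σ t x / ((n : ℝ) - 2)) :=
    ⟨_, fun _ _ => rfl⟩
  simp only [← hqf] at hB
  have hq0 : ∀ t x, 0 ≤ qf t x := fun t x => by rw [hqf]; exact le_max_left _ _
  have hn2 : (0 : ℝ) < (n : ℝ) - 2 := by linarith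
  obtain ⟨Q, hqQ⟩ : ∃ Q : ℝ, ∀ t, 0 ≤ t → t ≤ T → ∀ x, qf t x ≤ Q := by
    refine ⟨R + S / ((n : ℝ) - 2), fun t h1 h2 x => ?_⟩
    rw [hqf]
    refine max_le (by positivity) ?_
    have h3 := (abs_le.1 (hRb t h1 h2 x)).2
    have h4 := (abs_le.1 (hSb t h1 h2 x)).2
    gcongr
  have hqc : ∀ t, Continuous (qf t) := by
    intro t
    have h1 : Continuous fun x : M => ρ t x := hρ.comp (Continuous.prodMk_right t)
    have h2 : Continuous fun x : M => σ t x := hσ.comp (Continuous.prodMk_right t)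
    have h3 : qf t = fun x => max 0 (ρ t x + σ t x / ((n : ℝ) - 2)) := funext (hqf t)
    rw [h3]
    exact continuous_const.max (h1.add (h2.div_const _))
  obtain ⟨η, hη, hη1, hη', hηe⟩ := B24.consts (n := n) (Q := Q) ha hR hκ hc₁ hδ hVb0 hVb0 hA
  have hAL0 : 0 < A * L := by positivity
  obtain ⟨C₁, hC₁, h1⟩ := step_le a η (A * L) c₀ ha hη hAL0 hc₀
  obtain ⟨C₂, hC₂, h2⟩ := hTT n M X Γ I C G hG T a η (A * L) hT0 ha hη hAL0
  have hstep := fun (i : I) (y : E n) => stepT (y := y) (fun t => met (hG.met t) i) hAL0 hc₀ hC₂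
    h1 (fun t s ht hts hs => h2 t s ht hts hs i y)
  have hC₁' : 0 < C₁ + C₂ * c₀ * (c₀ + 3 * (c₀ + 1) * (A * L)) := by positivity
  set C₃ := C₁ + C₂ * c₀ * (c₀ + 3 * (c₀ + 1) * (A * L)) with hC₃
  obtain ⟨ε, hε, hε1, hεh, hεC⟩ := choose_eps hc₀ hc₁ hδ hC₁' hVb0 hh₀
  obtain ⟨v, hv0, hstp, hinc⟩ := hflow ε hε hε1
  have hh0 : 0 < c₀ * ε ^ 2 := by positivity
  obtain ⟨hsm1, hsm2⟩ := hsm _ hh0 hεh
  obtain ⟨K, hK1, hKT, hKge⟩ := steps hsm1 hh0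
  obtain ⟨τ, hτ⟩ : ∃ τ : ℕ → ℝ, ∀ k : ℕ, τ k = (k : ℝ) * (c₀ * ε ^ 2) := ⟨_, fun _ => rfl⟩
  have hτ0 : ∀ k, 0 ≤ τ k := fun k => by rw [hτ]; positivity
  have hτT : ∀ k ≤ K, τ k ≤ T := fun k hk => by rw [hτ]; exact hKT k hk
  have hτs : ∀ k, τ (k + 1) = τ k + c₀ * ε ^ 2 := fun k => by
    rw [hτ, hτ]; push_cast; ring
  simp only [← hτ] at hstp hinc
  have hSt : ∀ k ≤ K, StX C (G (τ k)) W A (v k) := fun k hk => hstp k (hτT k hk)
  have hM : ∀ k, MetX C (G (τ k)) := fun k => hG.met _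
  have hW : ∀ k, WtX C (G (τ k)) (μ (τ k)) W := fun k => hWt _ (hτ0 k)
  have hU : ∀ k ≤ K, UF C (μ (τ k)) (ν (τ k)) := fun k hk => hUF _ _ (hν _ (hτ0 k) (hτT k hk))
  have hone : ∀ k ≤ K, ∫ x, v k x * 1 ∂(μ (τ k)) ≤ Vb := fun k hk => by
    rw [one_le (hU k hk) hA (hW k) (hSt k hk)]
    exact hVt _ (hτ0 k) (hτT k hk)
  have honeV : ∀ k ≤ K, ∫ x, v k x * 1 ∂(μ (τ k)) ≤ V := fun k hk => by
    have h1 := unf (hU k hk) (ck_cont (hSt k hk).smooth)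
      (fun x => (vpos hA (hW k) (hSt k hk) x).le) (hSt k hk).sum
      (h := fun _ => (1 : ℝ)) continuous_const (fun _ => zero_le_one)
    have i1 : Integrable (fun x => v k x * 1) (μ (τ k)) :=
      vrho hA (hW k) (hSt k hk) (continuous_const (y := (1 : ℝ))) (m := 1) (fun _ => by simp)
    rw [← ofReal_integral_eq_lintegral_ofReal i1
      (Eventually.of_forall fun x => by simpa using (vpos hA (hW k) (hSt k hk) x).le)] at h1
    have h2 : ENNReal.ofReal (∫ x, v k x * 1 ∂(μ (τ k))) ≤ ENNReal.ofReal V := by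
      rw [h1]
      simp only [ENNReal.ofReal_one, lintegral_const, one_mul]
      exact hVν _ (hτ0 k) (hτT k hk)
    exact (ENNReal.ofReal_le_ofReal_iff hV).1 h2
  have hXP := fun k (hk : k ≤ K) => XP hA (hW k) (hSt k hk) hκ hδ hη
    (q := fun x => qf (τ k) (C.π x)) ((hqc (τ k)).comp C.π.continuous) (fun x => hq0 _ _)
    (fun x => hqQ _ (hτ0 k) (hτT k hk) _) hVb0 (hone k hk) hη'
  have main1 : ∀ k < K, c₁ * (∫ x, v k x * (gsX C (G (τ k)) (v k) x / v k x ^ 2 + η) ^ (a + 1)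
      ∂(μ (τ k))) ≤ c₁ * (∫ x, v k x * (κ ^ 2 * (qf (τ k) (C.π x) + 2 * η / κ ^ 2)) ^ (a + 1)
      ∂(μ (τ k))) + ((∫ x, eX C (G (τ k)) a η (v k) x ∂(μ (τ k))) -
      (∫ x, eX C (G (τ (k + 1))) a η (v (k + 1)) x ∂(μ (τ (k + 1))))) / (ε ^ 2 * c₀) +
      (C₃ * ε * Vb / c₀ + 2 * a * R * η * (A * (A ^ 4 + 1) ^ (a - 1) * Vb)) := by
    intro k hk
    have hk1 : k ≤ K := hk.le
    have hk2 : k + 1 ≤ K := hk
    refine ineq hboch hibp (hM k) (hM (k + 1)) (hμ _) (hcv _) (hμ _) (hW k) (hW (k + 1))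
      (hSt k hk1) (hSt (k + 1) hk2) hA
      hc₀ hε hC₁' ha hη hη1 hκ' hc₁' (hric _ (hτ0 k) (hτT k hk1)) (htr _ (hτ0 k) (hτT k hk1))
      (hRb _ (hτ0 k) (hτT k hk1))
      (hq0 _) (fun x => ?_) (fun γ i y => ?_) (hVt _ (hτ0 k) (hτT k hk1)) ?_
    · rw [ha2, hqf]; exact le_max_right _ _
    · have hs1 := (hSt k hk1).smooth
      have hs2 := (hSt (k + 1) hk2).smooth
      have hl := contDiff_lap (met (hM k) i) (hs1 γ i)
      obtain ⟨x, hx⟩ : ∃ x, x = γ • C.ψ i y := ⟨_, rfl⟩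
      have hWx := (hW k).pos x
      have hAL : A ≤ A * L := le_mul_of_one_le_right hA.le hL1
      have hALW : A * W x ≤ A * L * W x := by gcongr
      have hg2 : gsX C (G (τ k)) (v (k + 1)) x ≤ (A * L * W x) ^ 2 := by
        calc gsX C (G (τ k)) (v (k + 1)) x ≤ L * gsX C (G (τ (k + 1))) (v (k + 1)) x :=
              hLg _ _ (hτ0 k) (hτT k hk1) (hτ0 _) (hτT _ hk2) _ x
          _ ≤ L * (A * W x) ^ 2 := by
              gcongr
              exact (hSt (k + 1) hk2).grad x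
          _ ≤ L ^ 2 * (A * W x) ^ 2 := by
              gcongr
              nlinarith
          _ = _ := by ring
      have hCl : C.rep (lapX C (G (τ k)) (v k)) γ i = lap (G (τ k) i) (C.rep (v k) γ i) :=
        rep_lapX (hM k) (ck_le hs1 (by norm_num)) γ i
      have g5 : gsX C (G (τ k)) (v k) x ≤ (A * L * W x) ^ 2 :=
        ((hSt k hk1).grad x).trans (by gcongr)
      have g7 : |lapX C (G (τ k)) (v k) x| ≤ A * L * W x := ((hSt k hk1).lap0 x).trans hALW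
      have g8 : gsX C (G (τ k)) (lapX C (G (τ k)) (v k)) x ≤ (A * L * W x) ^ 2 :=
        ((hSt k hk1).lap1 x).trans (by gcongr)
      have g9 : |v (k + 1) x - v k x - ε ^ 2 * c₀ * lapX C (G (τ k)) (v k) x| ≤
          A * L * ε ^ 3 * W x := (hinc k (hτT k hk1) x).1.trans (by gcongr)
      have g10 : gsX C (G (τ k)) (fun y => v (k + 1) y - v k y - ε ^ 2 * c₀ *
          lapX C (G (τ k)) (v k) y) x ≤ (A * L * ε ^ 3 * W x) ^ 2 :=
        (hinc k (hτT k hk1) x).2.trans (by gcongr)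
      rw [hx, gsX_eq (hM k)] at hg2 g5 g8 g10
      rw [hx] at g7 g9 hWx
      have hCx : lapX C (G (τ k)) (v k) (γ • C.ψ i y) = lap (G (τ k) i) (C.rep (v k) γ i) y := by
        rw [← hCl]; rfl
      rw [hCx] at g7 g9
      rw [hCl] at g8
      have hr10 : C.rep (fun y => v (k + 1) y - v k y - ε ^ 2 * c₀ *
          lapX C (G (τ k)) (v k) y) γ i = fun y => C.rep (v (k + 1)) γ i y - C.rep (v k) γ i y -
          ε ^ 2 * c₀ * lap (G (τ k) i) (C.rep (v k) γ i) y := by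
        rw [← hCl]; rfl
      rw [hr10] at g10
      rw [hx] at hALW
      exact hstep i y (τ k) (τ (k + 1)) ε (W (γ • C.ψ i y)) (C.rep (v k) γ i)
        (C.rep (v (k + 1)) γ i) (lap (G (τ k) i) (C.rep (v k) γ i))
        (hτ0 k) (hτs k) (hτT _ hk2) hWx hε hε1
        ((hs1 γ i).differentiable (by norm_num) y) ((hs2 γ i).differentiable (by norm_num) y)
        (hl.differentiable (by norm_num) y)
        (((hSt k hk1).lower _).trans (by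
          have := vpos hA (hW k) (hSt k hk1) (γ • C.ψ i y)
          show A * v k (γ • C.ψ i y) ≤ A * L * v k (γ • C.ψ i y)
          gcongr))
        (((hSt (k + 1) hk2).lower _).trans (by
          have := vpos hA (hW (k + 1)) (hSt (k + 1) hk2) (γ • C.ψ i y)
          show A * v (k + 1) (γ • C.ψ i y) ≤ A * L * v (k + 1) (γ • C.ψ i y)
          gcongr))
        (((hSt k hk1).upper _).trans hALW) (((hSt (k + 1) hk2).upper _).trans hALW)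
        g5 hg2 g7 g8 g9 g10
    · rw [ha1]; exact (hXP k hk1).1
  obtain ⟨k, hk, hkY⟩ := pickT (K := K) (m := m) (h := c₀ * ε ^ 2) (c₁ := c₁) (θ := θ) (R := R₀)
    (D := D) (δ := δ)
    (Y := fun k => ∫ x, v k x * (gsX C (G (τ k)) (v k) x / v k x ^ 2 + η) ^ (a + 1) ∂(μ (τ k)))
    (P := fun k => κ ^ n * ∫ x, v k x * qf (τ k) (C.π x) ^ ((n : ℝ) / 2) ∂(μ (τ k)))
    (E := fun k => ∫ x, eX C (G (τ k)) a η (v k) x ∂(μ (τ k)))
    hK1 hh0 hc₁ hR₀0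
    (fun k hk => by
      have m1 := main1 k hk
      have m2 := (hXP k hk.le).2.2
      rw [← ha1] at m2
      rw [← ha1]
      have m3 := mul_le_mul_of_nonneg_left m2 hc₁.le
      have m4 : 0 < ε ^ 2 * c₀ := by positivity
      have m5 : c₁ * (∫ x, v k x * (gsX C (G (τ k)) (v k) x / v k x ^ 2 + η) ^ (a + 1)
          ∂(μ (τ k))) ≤ c₁ * (κ ^ n * ∫ x, v k x * qf (τ k) (C.π x) ^ (a + 1) ∂(μ (τ k))) +
          c₁ * (δ / 2) + ((∫ x, eX C (G (τ k)) a η (v k) x ∂(μ (τ k))) -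
          (∫ x, eX C (G (τ (k + 1))) a η (v (k + 1)) x ∂(μ (τ (k + 1))))) / (ε ^ 2 * c₀) := by
        linarith
      have m6 := mul_le_mul_of_nonneg_left m5 m4.le
      have m7 : ε ^ 2 * c₀ * (((∫ x, eX C (G (τ k)) a η (v k) x ∂(μ (τ k))) -
          (∫ x, eX C (G (τ (k + 1))) a η (v (k + 1)) x ∂(μ (τ (k + 1))))) / (ε ^ 2 * c₀)) =
          (∫ x, eX C (G (τ k)) a η (v k) x ∂(μ (τ k))) -
          (∫ x, eX C (G (τ (k + 1))) a η (v (k + 1)) x ∂(μ (τ (k + 1)))) :=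
        mul_div_cancel₀ _ m4.ne'
      rw [mul_add, m7] at m6
      linarith)
    (fun k hk => integral_nonneg fun x => by
      have h1 := vpos hA (hW k) (hSt k hk) x
      have h3 := s_pos (hM k) (vpos hA (hW k) (hSt k hk)) hη x
      simp only [Pi.zero_apply, eX]; positivity)
    (fun k hk => by
      have := young_int hA hη hη1 (hM k) (hW k) (hSt k hk.le) ha hm hc₁ hθ (hτ0 k)
        (hτT k hk.le) (honeV k hk.le)
      rw [← hR₀, hτ k] at this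
      simp only [hτ]
      exact this)
    hD0 hδ
    (by
      have e1 : R₀ * ((K : ℝ) * (c₀ * ε ^ 2)) ≤ R₀ * T := by
        have := hKT K le_rfl
        gcongr
      refine (e1.trans_lt hsm2).trans_le ?_
      have e2 : 0 ≤ T - 2 * (c₀ * ε ^ 2) := by linarith
      gcongr)
  refine ⟨τ k, μ (τ k), W, v k, A, hτ0 k, hτT k hk.le, hμ _, hW k, hSt k hk.le, ?_⟩
  rw [hκn, ← hD]
  exact concl (hU k hk.le) hA hη hη1 (hM k) (hW k) (hSt k hk.le) hκ hδ ha ha1 (hqc _) (hq0 _)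
    hθ1 hD0 (hXP k hk.le).2.1 hkY (hB _ (hτ0 k) (hτT k hk.le))

end Vale.Agent.P223.H399
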