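import Vale.Agent.P223.X.DefM

/-! Definitions for the statements: Ricci flow on a finite time interval. -/

namespace Vale.Agent.P223.J

open scoped ContDiff

variable {n : ℕ} {M : Type} [TopologicalSpace M]

/-- A Ricci flow for the times `0 ≤ t < T`. -/
structure RFT (c : M → Ch n M) (g : ℝ → M → Mtx n) (T : ℝ) : Prop where
  met : ∀ t, 0 ≤ t → t < T → Met c (g t)
  smooth : ∀ a i j, ContDiffOn ℝ ∞ (fun q : ℝ × E n => g q.1 a q.2 i j)
    (Set.Ico 0 T ×ˢ (c a).target)
  flow : ∀ t, 0 < t → t < T → ∀ a, ∀ x ∈ (c a).target, ∀ i j,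
    HasDerivAt (fun s => g s a x i j) (-2 * ric (g t a) x i j) t

end Vale.Agent.P223.J
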