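import Vale.Agent.P223.X.ExtX
import Vale.Agent.P223.X.ZeroX
import Vale.Agent.P223.X.MetU
import Vale.Agent.P223.H399.DefT

/-! Reparametrisation of the time of a Ricci flow on a finite interval; behaviour at the time
`0`. -/

namespace Vale.Agent.P223.H399

open scoped ContDiff Topology
open MeasureTheory Vale.Agent.P223.X Vale.Agent.P223.H

/-- smooth function with values smaller than `T` which is the identity on `(-∞, t₁]` -/
noncomputable def ph (T t₁ t : ℝ) : ℝ := T - Ext.th (T - t₁) (T - t)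

theorem ph_contDiff (T t₁ : ℝ) : ContDiff ℝ ∞ (ph T t₁) :=
  contDiff_const.sub ((Ext.th_contDiff _).comp (contDiff_const.sub contDiff_id))

theorem ph_lt {T t₁ : ℝ} (h : t₁ < T) (t : ℝ) : ph T t₁ t < T := by
  have := Ext.th_pos (t₀ := T - t₁) (by linarith) (T - t)
  unfold ph; linarith

theorem ph_eq {T t₁ t : ℝ} (h : t₁ < T) (ht : t ≤ t₁) : ph T t₁ t = t := by
  unfold ph
  rw [Ext.th_eq (by linarith) (by linarith)]
  ring

theorem th_le {a T u : ℝ} (ha : a / 2 ≤ T) (hu : u ≤ T) : Ext.th a u ≤ T := by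
  have h0 := Real.smoothTransition.nonneg (2 * u / a - 1)
  have h1 := Real.smoothTransition.le_one (2 * u / a - 1)
  unfold Ext.th
  have h2 := mul_le_mul_of_nonneg_left hu h0
  have h3 := mul_le_mul_of_nonneg_left ha (sub_nonneg.2 h1)
  linarith

theorem th_lt {a T u : ℝ} (ha : a / 2 < T) (hu : u < T) : Ext.th a u < T := by
  have h0 := Real.smoothTransition.nonneg (2 * u / a - 1)
  have h1 := Real.smoothTransition.le_one (2 * u / a - 1)
  unfold Ext.th
  set s := Real.smoothTransition (2 * u / a - 1)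
  rcases h0.eq_or_lt with h | h
  · rw [← h]; simpa using ha
  · have h2 := mul_lt_mul_of_pos_left hu h
    have h3 := mul_le_mul_of_nonneg_left ha.le (sub_nonneg.2 h1)
    linarith

theorem ph_nonneg {T t₁ t : ℝ} (h0 : -T ≤ t₁) (ht : 0 ≤ t) : 0 ≤ ph T t₁ t := by
  have := th_le (a := T - t₁) (T := T) (u := T - t) (by linarith) (by linarith)
  unfold ph; linarith

theorem ph_pos {T t₁ t : ℝ} (h0 : -T < t₁) (ht : 0 < t) : 0 < ph T t₁ t := by
  have := th_lt (a := T - t₁) (T := T) (u := T - t) (by linarith) (by linarith)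
  unfold ph; linarith

/-- Ricci flow on `[0, T)` -/
structure RFXT {n : ℕ} {M X Γ I : Type} [TopologicalSpace M] [TopologicalSpace X] [Group Γ]
    [MulAction Γ X] (C : Cov n M X Γ I) (G : ℝ → I → E n → Matrix (Fin n) (Fin n) ℝ) (T : ℝ) :
    Prop where
  smooth : ∀ i a b, ContDiffOn ℝ ∞ (fun p : ℝ × E n => G p.1 i p.2 a b)
    (Set.Ico 0 T ×ˢ Set.univ)
  met : ∀ t, 0 ≤ t → t < T → MetX C (G t)
  flow : ∀ t, 0 < t → t < T → ∀ i y a b,
    HasDerivAt (fun s => G s i y a b) (-2 * ric (G t i) y a b) t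

section
variable {n : ℕ} {M X Γ I : Type} [TopologicalSpace M] [TopologicalSpace X] [Group Γ]
    [MulAction Γ X] {C : Cov n M X Γ I} {G : ℝ → I → E n → Matrix (Fin n) (Fin n) ℝ} {T : ℝ}

/-- extension to all times -/
theorem ext (hG : RFXT C G T) {t₀ t₁ : ℝ} (h₀ : 0 < t₀) (h₁ : t₁ < T) (h₀₁ : t₀ ≤ t₁) :
    ∃ G' : ℝ → I → E n → Matrix (Fin n) (Fin n) ℝ, FamX C G' ∧
      ∀ t, t₀ ≤ t → t ≤ t₁ → G' t = G t := by
  have hp : ∀ t, 0 < ph T t₁ (Ext.th t₀ t) := fun t =>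
    ph_pos (by linarith) (Ext.th_pos h₀ t)
  have hl : ∀ t, ph T t₁ (Ext.th t₀ t) < T := fun t => ph_lt h₁ _
  refine ⟨fun t => G (ph T t₁ (Ext.th t₀ t)), ⟨?_, fun t => hG.met _ (hp t).le (hl t)⟩,
    fun t ht ht1 => ?_⟩
  · intro i a b
    have h1 : ContDiff ℝ ∞ (fun p : ℝ × E n => (ph T t₁ (Ext.th t₀ p.1), p.2)) :=
      (((ph_contDiff T t₁).comp (Ext.th_contDiff t₀)).comp contDiff_fst).prodMk contDiff_snd
    exact (hG.smooth i a b).comp_contDiff h1
      (fun p => ⟨⟨(hp p.1).le, hl p.1⟩, Set.mem_univ _⟩)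
  · show G (ph T t₁ (Ext.th t₀ t)) = G t
    rw [Ext.th_eq h₀ ht, ph_eq h₁ ht1]

end

/-- continuity at the time `0` -/
theorem zero (n : ℕ) (M X Γ I : Type) [TopologicalSpace M] [TopologicalSpace X]
    [Group Γ] [MulAction Γ X] [Fintype I] [T2Space X] [ConnectedSpace X] [T2Space M]
    [MeasurableSpace M] [BorelSpace M] (C : Cov n M X Γ I)
    (G : ℝ → I → E n → Matrix (Fin n) (Fin n) ℝ) (ν : ℝ → Measure M) {T : ℝ} (hT : 0 < T)
    (hG : RFXT C G T) (hV : ∀ t, 0 ≤ t → t < T → VolM C (G t) (ν t)) (p : ℝ) (hp0 : 0 ≤ p)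
    (δ : ENNReal) (hδ : 0 < δ) :
    ∃ t₁ : ℝ, 0 < t₁ ∧ ∀ t, 0 ≤ t → t < t₁ → IS C (G t) (ν t) p ≤ IS C (G 0) (ν 0) p + δ := by
  obtain ⟨D⟩ := Cell.exists_cells C
  -- change of the time
  obtain ⟨F, hF⟩ : ∃ F : ℝ → I → E n → Matrix (Fin n) (Fin n) ℝ, ∀ t, F t = G (ph T (T / 2) t) :=
    ⟨_, fun _ => rfl⟩
  have hFG : ∀ t, t ≤ T / 2 → F t = G t := fun t ht => by
    rw [hF, ph_eq (by linarith) ht]
  have hph0 : ∀ t, 0 ≤ t → 0 ≤ ph T (T / 2) t := fun t ht =>
    ph_nonneg (by linarith) ht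
  have hphT : ∀ t, ph T (T / 2) t < T := fun t => ph_lt (by linarith) t
  have hFm : ∀ t, 0 ≤ t → MetX C (F t) := fun t ht => by
    rw [hF]; exact hG.met _ (hph0 t ht) (hphT t)
  have hFs : ∀ i a b, ContDiffOn ℝ ∞ (fun p : ℝ × E n => F p.1 i p.2 a b) (Zero.ST n) := by
    intro i a b
    have h1 : ContDiffOn ℝ ∞ (fun p : ℝ × E n => (ph T (T / 2) p.1, p.2)) (Zero.ST n) :=
      (((ph_contDiff T (T / 2)).comp contDiff_fst).prodMk contDiff_snd).contDiffOn
    have h2 := (hG.smooth i a b).comp h1 fun p hp => ⟨⟨hph0 _ hp.1, hphT _⟩, Set.mem_univ _⟩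
    refine h2.congr fun p _ => ?_
    rw [hF]; rfl
  have hIS : ∀ t, 0 ≤ t → t ≤ T / 2 → IS C (G t) (ν t) p = ∑ i, ∫⁻ y in D.B i,
      ENNReal.ofReal (max 0 (-H.scal (F t i) y) ^ p * H.dens (F t i) y) := by
    intro t ht ht1
    unfold IS
    rw [Cell.lintegral_M D (hG.met t ht (by linarith)) (hV t ht (by linarith))]
    refine Finset.sum_congr rfl fun i _ => lintegral_congr fun y => ?_
    rw [X23.scM_eq (hG.met t ht (by linarith)), hFG t ht1,
      ENNReal.ofReal_mul (Real.rpow_nonneg (le_max_left _ _) _)]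
  have hδ' : 0 < δ / (Fintype.card I + 1) :=
    ENNReal.div_pos hδ.ne' (by
      exact ENNReal.add_ne_top.2 ⟨ENNReal.natCast_ne_top _, ENNReal.one_ne_top⟩)
  have hi : ∀ i, ∃ t₁ : ℝ, 0 < t₁ ∧ ∀ t, 0 ≤ t → t < t₁ →
      ∫⁻ y in D.B i, ENNReal.ofReal (max 0 (-H.scal (F t i) y) ^ p * H.dens (F t i) y) ≤
      (∫⁻ y in D.B i, ENNReal.ofReal (max 0 (-H.scal (F 0 i) y) ^ p * H.dens (F 0 i) y)) +
        δ / (Fintype.card I + 1) := by
    intro i
    have hs : ∀ a b, ContDiffOn ℝ ∞ (fun p : ℝ × E n => F p.1 i p.2 a b) (Zero.ST n) :=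
      hFs i
    have hp : ∀ t, 0 ≤ t → ∀ x, (F t i x).PosDef := fun t ht x => (hFm t ht).pos i x
    have h1 := (Zero.cd_scal (G := fun t => F t i) hs hp).continuousOn
    have h2 := (Zero.cd_dens (G := fun t => F t i) hs hp).continuousOn
    have hK : ContinuousOn (fun q : ℝ × E n =>
        (fun t x => max 0 (-H.scal (F t i) x) ^ p * H.dens (F t i) x) q.1 q.2) (Zero.ST n) := by
      refine ContinuousOn.mul ?_ h2
      have hc : Continuous (fun u : ℝ => max 0 (-u) ^ p) :=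
        (continuous_const.max continuous_neg).rpow_const fun x => Or.inr hp0
      exact hc.comp_continuousOn h1
    exact Zero.abs_zero
      (K := fun t x => max 0 (-H.scal (F t i) x) ^ p * H.dens (F t i) x) hK (D.meas i) (D.bdd i)
      _ hδ'
  choose S hS0 hS using hi
  obtain ⟨t₁, ht₁, hle⟩ : ∃ t₁ : ℝ, 0 < t₁ ∧ ∀ i, t₁ ≤ S i := by
    rcases isEmpty_or_nonempty I with h | h
    · exact ⟨1, one_pos, fun i => isEmptyElim i⟩
    · obtain ⟨i₀, hi₀⟩ := Finite.exists_min S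
      exact ⟨S i₀, hS0 i₀, hi₀⟩
  refine ⟨min t₁ (T / 2), by positivity, fun t ht0 ht => ?_⟩
  have ht2 : t ≤ T / 2 := (lt_of_lt_of_le ht (min_le_right _ _)).le
  have ht3 : t < t₁ := lt_of_lt_of_le ht (min_le_left _ _)
  rw [hIS t ht0 ht2, hIS 0 le_rfl (by positivity)]
  calc _ ≤ ∑ i, ((∫⁻ y in D.B i,
        ENNReal.ofReal (max 0 (-H.scal (F 0 i) y) ^ p * H.dens (F 0 i) y)) +
        δ / (Fintype.card I + 1)) :=
        Finset.sum_le_sum fun i _ => hS i t ht0 (lt_of_lt_of_le ht3 (hle i))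
    _ = (∑ i, ∫⁻ y in D.B i,
        ENNReal.ofReal (max 0 (-H.scal (F 0 i) y) ^ p * H.dens (F 0 i) y)) +
        Fintype.card I * (δ / (Fintype.card I + 1)) := by
        rw [Finset.sum_add_distrib, Finset.sum_const, Finset.card_univ, nsmul_eq_mul]
    _ ≤ _ := by
        refine add_le_add le_rfl ?_
        calc (Fintype.card I : ENNReal) * (δ / (Fintype.card I + 1)) ≤
            (Fintype.card I + 1) * (δ / (Fintype.card I + 1)) :=
              mul_le_mul' le_self_add le_rfl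
          _ = δ := ENNReal.mul_div_cancel (by simp) (by
            exact ENNReal.add_ne_top.2 ⟨ENNReal.natCast_ne_top _, ENNReal.one_ne_top⟩)

/-- the volume -/
theorem IS_zero {n : ℕ} {M X Γ I : Type} [TopologicalSpace M] [TopologicalSpace X]
    [Group Γ] [MulAction Γ X] [MeasurableSpace M] (C : Cov n M X Γ I)
    (G : I → E n → Matrix (Fin n) (Fin n) ℝ) (ν : Measure M) : IS C G ν 0 = ν Set.univ := by
  unfold IS
  simp

section
variable {n : ℕ} {M X Γ I : Type} [TopologicalSpace M] [TopologicalSpace X]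
  [Group Γ] [MulAction Γ X] {c : M → J.Ch n M} {B : Box c I} {C : Cov n M X Γ I}

/-- from atlases to coverings -/
theorem rfXT (hc : J.Atl c) (hβ : ∀ i y, C.π (C.ψ i y) = B.β i y) (hric : SpecRicU)
    {g : ℝ → M → J.Mtx n} {T : ℝ} (hg : J.RFT c g T) : RFXT C (fun t => B.G (g t)) T where
  met t ht ht1 := MetU.metX hc hβ (hg.met t ht ht1)
  smooth i k l := by
    have h1 : ContDiffOn ℝ ∞ (fun p : ℝ × E n => (p.1, B.x i p.2)) (Set.Ico 0 T ×ˢ Set.univ) :=
      (contDiff_fst.prodMk ((BoxB.contDiff_x B i).comp contDiff_snd)).contDiffOn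
    have h2 := (hg.smooth (B.a i) k l).comp h1 fun p hp => ⟨hp.1, BoxB.x_mem B i p.2⟩
    exact ((MetU.contDiff_dd B i k l).comp contDiff_snd).contDiffOn.mul h2
  flow t ht ht1 i y k l := by
    have h1 := hg.flow t ht ht1 (B.a i) (B.x i y) (BoxB.x_mem B i y) k l
    have h2 := h1.const_mul (dth (B.r i) (y k) * dth (B.r i) (y l))
    have h3 := (hric n M I c B (g t) hc (hg.met t ht.le ht1)).2.1 i y (Pi.single k 1)
      (Pi.single l 1)
    rw [MetU.D_single, MetU.D_single, MetU.bil_single, MetU.bil_single] at h3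
    refine h2.congr_deriv ?_
    linear_combination (-2) * h3.symm

end

end Vale.Agent.P223.H399
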