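import Vale.Agent.P223.X.MonoX

/-! Ricci flow on a finite time interval: monotonicity of the integral of `(Scal⁻)^{n/2}` and
growth of the volume. -/

namespace Vale.Agent.P223.H399.Mono

open scoped ContDiff Matrix Topology
open MeasureTheory Vale.Agent.P223.X Vale.Agent.P223.H Vale.Agent.P223.H.B25c
  Vale.Agent.P223.X.MonoX

/-- Gronwall -/
theorem gronwall {I I' : ℝ → ℝ} {η s t : ℝ} (hI : ∀ τ, HasDerivAt I (I' τ) τ)
    (h : ∀ τ, s < τ → τ < t → I' τ ≤ η * I τ) (hst : s ≤ t) :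
    I t ≤ Real.exp (η * (t - s)) * I s := by
  have hJ : ∀ τ, HasDerivAt (fun τ => Real.exp (-η * τ) * I τ)
      (Real.exp (-η * τ) * (-η) * I τ + Real.exp (-η * τ) * I' τ) τ := by
    intro τ
    have h1 : HasDerivAt (fun τ => Real.exp (-η * τ)) (Real.exp (-η * τ) * (-η)) τ := by
      have := ((hasDerivAt_id τ).const_mul (-η)).exp
      simpa using this
    exact h1.mul (hI τ)
  have hanti : AntitoneOn (fun τ => Real.exp (-η * τ) * I τ) (Set.Icc s t) := by
    refine antitoneOn_of_deriv_nonpos (convex_Icc s t)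
      (fun τ _ => (hJ τ).continuousAt.continuousWithinAt)
      (fun τ _ => (hJ τ).differentiableAt.differentiableWithinAt) ?_
    intro τ hτ
    rw [interior_Icc] at hτ
    rw [(hJ τ).deriv]
    have h2 := h τ hτ.1 hτ.2
    have h3 := Real.exp_pos (-η * τ)
    nlinarith
  have h4 := hanti (Set.left_mem_Icc.2 hst) (Set.right_mem_Icc.2 hst) hst
  have h5 : Real.exp (-η * t) * I t ≤ Real.exp (-η * s) * I s := h4
  have h6 := mul_le_mul_of_nonneg_left h5 (Real.exp_pos (η * t)).le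
  rw [← mul_assoc, ← mul_assoc, ← Real.exp_add, ← Real.exp_add] at h6
  have e1 : η * t + -η * t = 0 := by ring
  have e2 : η * t + -η * s = η * (t - s) := by ring
  rw [e1, e2, Real.exp_zero, one_mul] at h6
  exact h6

variable {n : ℕ} {M X Γ I : Type} [TopologicalSpace M] [TopologicalSpace X] [Group Γ]
    [MulAction Γ X] {C : Cov n M X Γ I} [MeasurableSpace M] [BorelSpace M] [Fintype I]
    [T2Space X] [ConnectedSpace X] [T2Space M]
    {G : ℝ → I → E n → Matrix (Fin n) (Fin n) ℝ} {ν : ℝ → Measure M} {t₀ t₁ : ℝ}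

/-- monotonicity -/
theorem mono (hPart : SpecPart) (hL : SpecLapX) (hE : SpecEvol) (hn : 3 ≤ n) (hF : FamX C G)
    (hV : ∀ t, t₀ ≤ t → t ≤ t₁ → VolM C (G t) (ν t))
    (hflow : ∀ t, t₀ < t → t < t₁ → ∀ i y a b,
      dtG (fun s => G s i) t y a b = -2 * ric (G t i) y a b)
    {s t : ℝ} (hs₀ : t₀ ≤ s) (hst : s ≤ t) (ht₁ : t ≤ t₁) :
    IS C (G t) (ν t) ((n : ℝ) / 2) ≤ IS C (G s) (ν s) ((n : ℝ) / 2) := by
  obtain ⟨χ, hχ⟩ := hPart n M X Γ I C
  have hn3 : (3 : ℝ) ≤ n := by exact_mod_cast hn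
  have hn0 : (0 : ℝ) < n := by linarith
  obtain ⟨p, hp⟩ : ∃ p : ℝ, p = (n : ℝ) / 2 := ⟨_, rfl⟩
  rw [← hp]
  have hp1 : 1 ≤ p := by rw [hp]; linarith
  have hp0 : 0 < p := by linarith
  have hball : Bornology.IsBounded (Metric.closedBall (0 : E n) 2) := Metric.isBounded_closedBall
  have hmono : ∀ η : ℝ, 0 < η → ∫ m, B25c.FF p η (scM C (G t) m) ∂(ν t) ≤
      Real.exp (η * (t - s)) * ∫ m, B25c.FF p η (scM C (G s) m) ∂(ν s) := by
    intro η hη
    have e : ∀ τ, t₀ ≤ τ → τ ≤ t₁ → ∫ m, B25c.FF p η (scM C (G τ) m) ∂(ν τ) =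
        ∑ i, ∫ y in Metric.closedBall (0 : E n) 2, KK G χ p η i τ y := fun τ hτ hτ1 =>
      integral_sc (hF.met τ) (hV τ hτ hτ1) hχ (FF_cd hη).continuous
    rw [e t (hs₀.trans hst) ht₁, e s hs₀ (hst.trans ht₁)]
    refine gronwall (I := fun τ => ∑ i, ∫ y in Metric.closedBall (0 : E n) 2, KK G χ p η i τ y)
      (I' := fun τ => ∑ i, ∫ y in Metric.closedBall (0 : E n) 2,
        deriv (fun s => KK G χ p η i s y) τ) (fun τ => ?_) (fun τ hτ hτt => ?_) hst
    · exact HasDerivAt.fun_sum fun i _ => (integral_deriv (KK_cd hF hχ hη i) hball τ).2.2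
    · have hτ₀ : t₀ < τ := lt_of_le_of_lt hs₀ hτ
      have hτ₁ : τ < t₁ := lt_of_lt_of_le hτt ht₁
      show _ ≤ η * ∑ i, ∫ y in Metric.closedBall (0 : E n) 2, KK G χ p η i τ y
      rw [← e τ hτ₀.le hτ₁.le]
      exact der_le_X hL hE hF hχ hη hn0 hp hp1 (hV τ hτ₀.le hτ₁.le) (hflow τ hτ₀ hτ₁)
  -- the limit
  have hVs := hV s hs₀ (hst.trans ht₁)
  have hlim := lim_sc (hF.met s) hVs hp0
  have hexp : Filter.Tendsto (fun k : ℕ => Real.exp (1 / ((k : ℝ) + 1) * (t - s)))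
      Filter.atTop (𝓝 1) := by
    have h1 := ((tendsto_one_div_add_atTop_nhds_zero_nat (𝕜 := ℝ)).mul_const (t - s))
    rw [zero_mul] at h1
    have h2 := (Real.continuous_exp.tendsto 0).comp h1
    rw [Real.exp_zero] at h2
    exact h2
  have hprod := hexp.mul hlim
  rw [one_mul] at hprod
  have hofr := (ENNReal.continuous_ofReal.tendsto _).comp hprod
  rw [IS_eq (hF.met s) hVs hp0]
  refine ge_of_tendsto' hofr fun k => ?_
  have hη : (0 : ℝ) < 1 / ((k : ℝ) + 1) := by positivity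
  exact (IS_le (hF.met t) (hV t (hs₀.trans hst) ht₁) hp0 hη).trans
    (ENNReal.ofReal_le_ofReal (hmono _ hη))

/-- the integrand of the volume -/
noncomputable def KV (G : ℝ → I → E n → Matrix (Fin n) (Fin n) ℝ) (χ : I → E n → ℝ)
    (i : I) (t : ℝ) (y : E n) : ℝ := χ i y * H.dens (G t i) y

omit [MeasurableSpace M] [BorelSpace M] [T2Space X] [ConnectedSpace X] [T2Space M] in
theorem KV_cd {χ : I → E n → ℝ} (hF : FamX C G) (hχ : Part C χ) (i : I) :
    ContDiff ℝ ∞ (fun q : ℝ × E n => KV G χ i q.1 q.2) :=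
  ((hχ.smooth i).comp contDiff_snd).mul
    (cd_dens (G := fun t => G t i) (hF.smooth i) (fun t y => (hF.met t).pos i y))

/-- growth of the volume -/
theorem vol_le (hPart : SpecPart) (hL : SpecLapX) (hE : SpecEvol) (hn : 3 ≤ n) (hF : FamX C G)
    (hV : ∀ t, t₀ ≤ t → t ≤ t₁ → VolM C (G t) (ν t))
    (hflow : ∀ t, t₀ < t → t < t₁ → ∀ i y a b,
      dtG (fun s => G s i) t y a b = -2 * ric (G t i) y a b)
    {s t c : ℝ} (hs₀ : t₀ ≤ s) (hst : s ≤ t) (ht₁ : t ≤ t₁) (hc : 0 < c) :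
    ν t Set.univ ≤ ENNReal.ofReal (Real.exp (c * (t - s))) *
      (ν s Set.univ + ENNReal.ofReal (c ^ (-((n : ℝ) / 2))) * IS C (G s) (ν s) ((n : ℝ) / 2)) := by
  obtain ⟨χ, hχ⟩ := hPart n M X Γ I C
  have hn3 : (3 : ℝ) ≤ n := by exact_mod_cast hn
  have hmon := fun {τ : ℝ} (h1 : s ≤ τ) (h2 : τ ≤ t₁) =>
    mono hPart hL hE hn hF hV hflow hs₀ h1 h2
  obtain ⟨p, hp⟩ : ∃ p : ℝ, p = (n : ℝ) / 2 := ⟨_, rfl⟩
  rw [← hp] at hmon ⊢
  have hp1 : 1 ≤ p := by rw [hp]; linarith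
  have hp0 : 0 < p := by linarith
  have hball : Bornology.IsBounded (Metric.closedBall (0 : E n) 2) := Metric.isBounded_closedBall
  have hVs := hV s hs₀ (hst.trans ht₁)
  have hVt := hV t (hs₀.trans hst) ht₁
  -- the integral of `(Scal⁻)^p`
  set φ : ℝ → ℝ := fun u => max 0 (-u) ^ p with hφ
  have hφc : Continuous φ :=
    (continuous_const.max continuous_neg).rpow_const fun x => Or.inr hp0.le
  have hφ0 : ∀ u, 0 ≤ φ u := fun u => Real.rpow_nonneg (le_max_left _ _) _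
  set S : ℝ := ∫ m, φ (scM C (G s) m) ∂(ν s) with hS
  have hS0 : 0 ≤ S := integral_nonneg fun m => hφ0 _
  have hSτ : ∀ τ, s ≤ τ → τ ≤ t₁ → ∫ m, φ (scM C (G τ) m) ∂(ν τ) ≤ S := by
    intro τ h1 h2
    have h3 := hmon h1 h2
    rw [IS_eq (hF.met τ) (hV τ (hs₀.trans h1) h2) hp0, IS_eq (hF.met s) hVs hp0] at h3
    exact (ENNReal.ofReal_le_ofReal_iff hS0).1 h3
  -- volumes
  have e : ∀ τ, t₀ ≤ τ → τ ≤ t₁ → ∫ _m, (1 : ℝ) ∂(ν τ) =
      ∑ i, ∫ y in Metric.closedBall (0 : E n) 2, KV G χ i τ y := fun τ h1 h2 => by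
    have := integral_sc (hF.met τ) (hV τ h1 h2) hχ (φ := fun _ => (1 : ℝ)) continuous_const
    simp only [one_mul] at this
    exact this
  have hpt : ∀ u : ℝ, -u ≤ c ^ (1 - p) * φ u + c := by
    intro u
    rcases le_total (max 0 (-u)) c with h | h
    · have h1 : 0 ≤ c ^ (1 - p) * φ u := mul_nonneg (Real.rpow_nonneg hc.le _) (hφ0 u)
      have h2 := le_max_right 0 (-u)
      linarith
    · have h0 : 0 < max 0 (-u) := lt_of_lt_of_le hc h
      have h1 : c ^ (p - 1) ≤ max 0 (-u) ^ (p - 1) := Real.rpow_le_rpow hc.le h (by linarith)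
      have h2 : φ u = max 0 (-u) ^ (p - 1) * max 0 (-u) := by
        rw [← Real.rpow_add_one h0.ne', sub_add_cancel]
      have h3 : c ^ (1 - p) * c ^ (p - 1) = 1 := by
        rw [← Real.rpow_add hc]; simp
      have h4 : 0 ≤ c ^ (1 - p) := Real.rpow_nonneg hc.le _
      have h5 : max 0 (-u) ≤ c ^ (1 - p) * φ u := by
        rw [h2, ← mul_assoc]
        calc max 0 (-u) = (c ^ (1 - p) * c ^ (p - 1)) * max 0 (-u) := by rw [h3, one_mul]
          _ ≤ _ := by gcongr
      have h6 := le_max_right 0 (-u)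
      linarith
  -- the derivative
  have hder : ∀ τ, s < τ → τ < t → ∑ i, ∫ y in Metric.closedBall (0 : E n) 2,
      deriv (fun s => KV G χ i s y) τ ≤
      c * ((∑ i, ∫ y in Metric.closedBall (0 : E n) 2, KV G χ i τ y) + c ^ (-p) * S) := by
    intro τ h1 h2
    have hτ0 : t₀ < τ := lt_of_le_of_lt hs₀ h1
    have hτ1 : τ < t₁ := lt_of_lt_of_le h2 ht₁
    have hG := hF.met τ
    have hVτ := hV τ hτ0.le hτ1.le
    have hχc : ∀ i, Continuous (χ i) := fun i => (hχ.smooth i).continuous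
    have hdc : ∀ i, Continuous (H.dens (G τ i)) := fun i => (dens_cd hG i).continuous
    have hsc : ∀ i, Continuous (H.scal (G τ i)) := fun i => (scal_cd hG i).continuous
    have k1 : ∀ i, ∫ y in Metric.closedBall (0 : E n) 2, deriv (fun s => KV G χ i s y) τ ≤
        c ^ (1 - p) * (∫ y in Metric.closedBall (0 : E n) 2,
          χ i y * (φ (H.scal (G τ i) y) * H.dens (G τ i) y)) +
        c * ∫ y in Metric.closedBall (0 : E n) 2, KV G χ i τ y := by
      intro i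
      have i1 : IntegrableOn (fun y => c ^ (1 - p) * (χ i y * (φ (H.scal (G τ i) y) *
          H.dens (G τ i) y))) (Metric.closedBall (0 : E n) 2) :=
        intOn hball (continuous_const.mul ((hχc i).mul ((hφc.comp (hsc i)).mul (hdc i))))
      have i2 : IntegrableOn (fun y => c * KV G χ i τ y) (Metric.closedBall (0 : E n) 2) :=
        intOn hball (continuous_const.mul ((hχc i).mul (hdc i)))
      rw [← integral_const_mul, ← integral_const_mul, ← integral_add i1 i2]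
      refine integral_mono (integral_deriv (KV_cd hF hχ i) hball τ).2.1 (i1.add i2) fun y => ?_
      obtain ⟨-, d2, -⟩ := hE n (fun t => G t i) (hF.smooth i) (fun t y => (hF.met t).pos i y) τ
        (hflow τ hτ0 hτ1 i) y
      have d3 : HasDerivAt (fun s => KV G χ i s y)
          (χ i y * (-H.scal (G τ i) y * H.dens (G τ i) y)) τ := d2.const_mul (χ i y)
      have d4 : 0 < H.dens (G τ i) y := Real.sqrt_pos.2 (hG.pos i y).det_pos
      have d5 := mul_le_mul_of_nonneg_right (hpt (H.scal (G τ i) y)) d4.le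
      have d6 := mul_le_mul_of_nonneg_left d5 (hχ.nonneg i y)
      show deriv (fun s => KV G χ i s y) τ ≤ c ^ (1 - p) * (χ i y * (φ (H.scal (G τ i) y) *
          H.dens (G τ i) y)) + c * (χ i y * H.dens (G τ i) y)
      rw [d3.deriv]
      refine d6.trans (le_of_eq ?_)
      ring
    refine (Finset.sum_le_sum fun i _ => k1 i).trans ?_
    rw [Finset.sum_add_distrib, ← Finset.mul_sum, ← Finset.mul_sum,
      ← integral_sc hG hVτ hχ hφc]
    have k2 := hSτ τ h1.le hτ1.le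
    have k3 : 0 ≤ c ^ (1 - p) := Real.rpow_nonneg hc.le _
    have k4 : c * c ^ (-p) = c ^ (1 - p) := by
      rw [sub_eq_add_neg, Real.rpow_add hc, Real.rpow_one]
    have k5 : c ^ (1 - p) * ∫ m, φ (scM C (G τ) m) ∂(ν τ) ≤ c ^ (1 - p) * S := by gcongr
    rw [mul_add, ← mul_assoc c, k4]
    linarith
  have hfin := gronwall
    (I := fun τ => (∑ i, ∫ y in Metric.closedBall (0 : E n) 2, KV G χ i τ y) + c ^ (-p) * S)
    (I' := fun τ => ∑ i, ∫ y in Metric.closedBall (0 : E n) 2, deriv (fun s => KV G χ i s y) τ)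
    (fun τ => (HasDerivAt.fun_sum fun i _ =>
      (integral_deriv (KV_cd hF hχ i) hball τ).2.2).add_const _) hder hst
  rw [← e t (hs₀.trans hst) ht₁, ← e s hs₀ (hst.trans ht₁)] at hfin
  have hft := IntM.isFiniteMeasure (hF.met t) hVt
  have hfs := IntM.isFiniteMeasure (hF.met s) hVs
  simp only [integral_const, smul_eq_mul, mul_one] at hfin
  rw [IS_eq (hF.met s) hVs hp0, ← ENNReal.ofReal_mul (Real.rpow_nonneg hc.le _)]
  have e1 : ∀ μ : Measure M, IsFiniteMeasure μ → μ Set.univ = ENNReal.ofReal (μ.real Set.univ) :=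
    fun μ hμ => (ENNReal.ofReal_toReal (measure_ne_top μ _)).symm
  rw [e1 _ hft, e1 _ hfs, ← ENNReal.ofReal_add (by positivity)
    (mul_nonneg (Real.rpow_nonneg hc.le _) hS0), ← ENNReal.ofReal_mul (by positivity)]
  refine ENNReal.ofReal_le_ofReal ?_
  have h0 : 0 ≤ c ^ (-p) * S := mul_nonneg (Real.rpow_nonneg hc.le _) hS0
  linarith

end Vale.Agent.P223.H399.Mono
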