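import Mathlib.Analysis.Complex.ExponentialBounds
import Vale.Agent.P223.X.All
import Vale.Agent.P223.H399.AT
import Vale.Agent.P223.H399.Mono
import Vale.Agent.P223.H399.ExtT

/-! Theorems for coverings `Cov`: moving metrics and Ricci flow on a finite time interval. -/

namespace Vale.Agent.P223.H399

open scoped ContDiff Topology
open MeasureTheory Filter Vale.Agent.P223.X Vale.Agent.P223.H

variable {n : ℕ} {M X Γ I : Type} [TopologicalSpace M] [TopologicalSpace X] [Group Γ]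
    [MulAction Γ X] [Fintype I] [T2Space X] [SimplyConnectedSpace X] [T2Space M]
    [MeasurableSpace M] [BorelSpace M]

/-- Moving metrics on a finite time interval. -/
theorem movingX (C : Cov n M X Γ I) (hinf : ∃ s : ℕ → X, MT.Dist Γ s) (hn : 4 ≤ n)
    (G : ℝ → I → E n → Matrix (Fin n) (Fin n) ℝ) (hG : FamX C G) (T : ℝ) (hT : 0 < T)
    (ρ σ : ℝ → M → ℝ)
    (hρ : Continuous (fun p : ℝ × M => ρ p.1 p.2)) (hσ : Continuous (fun p : ℝ × M => σ p.1 p.2))
    (h1 : ∀ t, 0 ≤ t → t ≤ T → ∀ i (y w : E n),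
      -ρ t (C.π (C.ψ i y)) * ∑ a, ∑ b, w a * w b * G t i y a b ≤
        ∑ a, ∑ b, w a * w b * (ric (G t i) y a b + 1 / 2 * H.dtG (fun s => G s i) t y a b))
    (h2 : ∀ t, 0 ≤ t → t ≤ T → ∀ i y, H.trh (fun s => G s i) t y ≤ σ t (C.π (C.ψ i y)))
    (ν : ℝ → Measure M) (hν : ∀ t, 0 ≤ t → t ≤ T → VolM C (G t) (ν t)) (B V : ENNReal)
    (hB : ∀ t, 0 ≤ t → t ≤ T → ∫⁻ m, ENNReal.ofReal
      (max 0 (ρ t m + σ t m / ((n : ℝ) - 2)) ^ ((n : ℝ) / 2)) ∂(ν t) ≤ B)
    (hV : ∀ t, 0 ≤ t → t ≤ T → ν t Set.univ ≤ V) (θ : ℝ) (hθ : 0 < θ) (hθ1 : θ < 1) :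
    ENNReal.ofReal (1 - θ) * svX C ≤ ENNReal.ofReal (((n : ℝ) - 2 + √n) ^ n) * B +
      ENNReal.ofReal (((n : ℝ) - 1) * θ * (n * ((n : ℝ) - 2 + √n) ^ 2 / (2 * θ * T)) ^
          ((n : ℝ) / 2)) * V := by
  let : MeasurableSpace X := borel X
  have : BorelSpace X := ⟨rfl⟩
  have hn4 : (4 : ℝ) ≤ n := by exact_mod_cast hn
  have hκ : 0 < (n : ℝ) - 2 + √n := by
    have := Real.sqrt_nonneg (n : ℝ)
    linarith
  have hn1 : 0 < (n : ℝ) - 1 := by linarith
  have hc : 0 < ((n : ℝ) - 1) * θ * (n * ((n : ℝ) - 2 + √n) ^ 2 / (2 * θ * T)) ^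
      ((n : ℝ) / 2) := by positivity
  by_cases hVt : V = ⊤
  · rw [hVt, ENNReal.mul_top (by simpa using hc), add_top]
    exact le_top
  have hVe : ENNReal.ofReal V.toReal = V := ENNReal.ofReal_toReal hVt
  refine ENNReal.le_of_forall_pos_le_add fun δ hδ _ => ?_
  obtain ⟨t, μ, W, v, A, ht, htT, hμ, hW, hv, h⟩ := main flow EqX.main TTX.main
    (IBPX.main part Vol.main) Vol.main H.Bochner.mainT n M X Γ I C G hn hG T hT ρ σ hρ hσ h1 h2
    ν hν B hB V.toReal ENNReal.toReal_nonneg (fun t h3 h4 => by rw [hVe]; exact hV t h3 h4)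
    θ hθ hθ1 δ (by exact_mod_cast hδ)
  rw [ENNReal.ofReal_mul hc.le, hVe, ENNReal.ofReal_coe_nnreal] at h
  refine le_trans ?_ h
  gcongr
  exact Main.svX_le hb.part hb.form hb.cyc hb.norm hb.tr hb.fund hb.mt hb.dual hb.fin C (G t) μ
    (ν t) W v A (by omega) (hG.met t) hμ (hν t ht htT) hW hv hinf

/-- the constant for the Ricci flow -/
noncomputable def cn (n : ℕ) : ℝ := 3 * n * (n * ((n : ℝ) - 2 + √n) ^ 2) ^ ((n : ℝ) / 2)

theorem cn_pos {n : ℕ} (hn : 4 ≤ n) : 0 < cn n := by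
  have hn4 : (4 : ℝ) ≤ n := by exact_mod_cast hn
  have := Real.sqrt_nonneg (n : ℝ)
  have : 0 < (n : ℝ) - 2 + √n := by linarith
  unfold cn
  positivity

/-- real arithmetic: the coefficient of the volume -/
theorem coef_vol {n : ℕ} (hn : 4 ≤ n) {T : ℝ} (hT : 0 < T) :
    (((n : ℝ) - 1) * (n * ((n : ℝ) - 2 + √n) ^ 2 / T) ^ ((n : ℝ) / 2)) * Real.exp 1 ≤
      cn n * T ^ (-((n : ℝ) / 2)) := by
  have hn4 : (4 : ℝ) ≤ n := by exact_mod_cast hn
  have := Real.sqrt_nonneg (n : ℝ)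
  have hκ : 0 < (n : ℝ) - 2 + √n := by linarith
  have he := Real.exp_one_lt_d9
  rw [Real.div_rpow (by positivity) hT.le, Real.rpow_neg hT.le]
  unfold cn
  set z := (n * ((n : ℝ) - 2 + √n) ^ 2) ^ ((n : ℝ) / 2) with hz
  have hz0 : 0 ≤ z := by positivity
  have hT' : 0 ≤ (T ^ ((n : ℝ) / 2))⁻¹ := by positivity
  have h1 : ((n : ℝ) - 1) * Real.exp 1 ≤ 3 * n := by nlinarith
  calc _ = (((n : ℝ) - 1) * Real.exp 1) * z * (T ^ ((n : ℝ) / 2))⁻¹ := by
        rw [div_eq_mul_inv]; ring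
    _ ≤ (3 * n) * z * (T ^ ((n : ℝ) / 2))⁻¹ := by gcongr

/-- real arithmetic: the coefficient of the curvature integral -/
theorem coef_sc {n : ℕ} (hn : 4 ≤ n) {T : ℝ} (hT : 0 < T) :
    2 * (((n : ℝ) - 2 + √n) ^ n * (((n : ℝ) - 2)⁻¹) ^ ((n : ℝ) / 2)) +
    (((n : ℝ) - 1) * (n * ((n : ℝ) - 2 + √n) ^ 2 / T) ^ ((n : ℝ) / 2)) * Real.exp 1 *
      T ^ ((n : ℝ) / 2) ≤ cn n := by
  have hn4 : (4 : ℝ) ≤ n := by exact_mod_cast hn
  have := Real.sqrt_nonneg (n : ℝ)
  have hκ : 0 < (n : ℝ) - 2 + √n := by linarith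
  have he := Real.exp_one_lt_d9
  have hTp : 0 < T ^ ((n : ℝ) / 2) := Real.rpow_pos_of_pos hT _
  rw [Real.div_rpow (by positivity) hT.le]
  set κ := (n : ℝ) - 2 + √n with hκd
  set z := (n * κ ^ 2) ^ ((n : ℝ) / 2) with hz
  have hκz : κ ^ n * (((n : ℝ) - 2)⁻¹) ^ ((n : ℝ) / 2) ≤ z := by
    have h1 : κ ^ n = (κ ^ 2) ^ ((n : ℝ) / 2) := by
      rw [← Real.rpow_natCast κ 2, ← Real.rpow_mul hκ.le]
      push_cast
      rw [mul_div_cancel₀ _ (two_ne_zero), Real.rpow_natCast]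
    have h2 : (0 : ℝ) < (n : ℝ) - 2 := by linarith
    rw [h1, ← Real.mul_rpow (by positivity) (by positivity)]
    refine Real.rpow_le_rpow (by positivity) ?_ (by positivity)
    have h3 : ((n : ℝ) - 2)⁻¹ ≤ 1 := inv_le_one_of_one_le₀ (by linarith)
    have h4 : 0 ≤ κ ^ 2 := by positivity
    nlinarith
  have hz0 : 0 ≤ z := by positivity
  have h1 : 2 + ((n : ℝ) - 1) * Real.exp 1 ≤ 3 * n := by nlinarith
  calc _ ≤ 2 * z + (((n : ℝ) - 1) * (z / T ^ ((n : ℝ) / 2))) * Real.exp 1 *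
        T ^ ((n : ℝ) / 2) := by gcongr
    _ = (2 + ((n : ℝ) - 1) * Real.exp 1) * z := by field_simp
    _ ≤ 3 * n * z := by gcongr

/-- Ricci flow, inequality at positive times. -/
theorem keyX (C : Cov n M X Γ I) (hinf : ∃ s : ℕ → X, MT.Dist Γ s) (hn : 4 ≤ n)
    (G : ℝ → I → E n → Matrix (Fin n) (Fin n) ℝ) {T : ℝ} (hG : RFXT C G T)
    (ν : ℝ → Measure M) (hν : ∀ t, 0 ≤ t → t < T → VolM C (G t) (ν t)) {t₀ T' : ℝ}
    (ht₀ : 0 < t₀) (hT' : 0 < T') (hT : t₀ + T' < T) :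
    svX C ≤ ENNReal.ofReal (cn n) * (IS C (G t₀) (ν t₀) ((n : ℝ) / 2) +
      ENNReal.ofReal (T' ^ (-((n : ℝ) / 2))) * ν t₀ Set.univ) := by
  have hn4 : (4 : ℝ) ≤ n := by exact_mod_cast hn
  have hn2 : (0 : ℝ) < (n : ℝ) - 2 := by linarith
  have hκ0 := Final.kap_nonneg hn
  obtain ⟨G', hG', hGG⟩ := ext hG (t₀ := t₀ / 2) (t₁ := (t₀ + T' + T) / 2) (by linarith)
    (by linarith) (by linarith)
  set F : ℝ → I → E n → Matrix (Fin n) (Fin n) ℝ := fun t => G' (t + t₀) with hF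
  have hFam : FamX C F := by
    refine ⟨fun i a b => ?_, fun t => hG'.met _⟩
    exact (hG'.smooth i a b).comp (f := fun p : ℝ × E n => (p.1 + t₀, p.2))
      ((contDiff_fst.add contDiff_const).prodMk contDiff_snd)
  have hdt : ∀ t, t₀ / 2 < t → t < (t₀ + T' + T) / 2 → ∀ i y a b,
      H.dtG (fun s => G' s i) t y a b = -2 * H.ric (G' t i) y a b := by
    intro t ht ht' i y a b
    have h1 := hG.flow t (by linarith) (by linarith) i y a b
    have h2 : (fun s => G' s i y a b) =ᶠ[nhds t] fun s => G s i y a b := by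
      filter_upwards [lt_mem_nhds ht, gt_mem_nhds ht'] with s hs hs'
      rw [hGG s hs.le hs'.le]
    unfold H.dtG
    rw [(h1.congr_of_eventuallyEq h2).deriv, hGG t ht.le ht'.le]
  have hdF : ∀ t, 0 ≤ t → t ≤ T' → ∀ i y a b,
      H.dtG (fun s => F s i) t y a b = -2 * H.ric (F t i) y a b := by
    intro t ht ht' i y a b
    rw [hF, ← hdt (t + t₀) (by linarith) (by linarith) i y a b]
    unfold H.dtG
    exact deriv_comp_add_const (fun s => G' s i y a b) t₀ t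
  have hsc : ∀ i, ContDiff ℝ ∞ (fun p : ℝ × E n => H.scal (F p.1 i) p.2) := fun i =>
    B25c.cd_scal (G := fun t => F t i) (hFam.smooth i) fun t x => (hFam.met t).pos i x
  have hνF : ∀ t, 0 ≤ t → t ≤ T' → VolM C (F t) (ν (t + t₀)) := fun t ht ht' => by
    have := hν (t + t₀) (by linarith) (by linarith)
    rw [← hGG (t + t₀) (by linarith) (by linarith)] at this
    exact this
  have hνG' : ∀ t, t₀ ≤ t → t ≤ t₀ + T' → VolM C (G' t) (ν t) := fun t ht ht' => by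
    rw [hGG t (by linarith) (by linarith)]
    exact hν t (by linarith) (by linarith)
  have hG0 : G' t₀ = G t₀ := hGG t₀ (by linarith) (by linarith)
  have hmono : ∀ t, 0 ≤ t → t ≤ T' → IS C (F t) (ν (t + t₀)) ((n : ℝ) / 2) ≤
      IS C (G t₀) (ν t₀) ((n : ℝ) / 2) := by
    intro t ht ht'
    have := Mono.mono part (LapX.main part) (H.Evol.main H.B25a.main) (by omega) hG' hνG'
      (fun t h1 h2 => hdt t (by linarith) (by linarith)) le_rfl
      (show t₀ ≤ t + t₀ by linarith) (by linarith)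
    rw [hG0] at this
    exact this
  have hvol : ∀ t, 0 ≤ t → t ≤ T' → ν (t + t₀) Set.univ ≤ ENNReal.ofReal (Real.exp 1) *
      (ν t₀ Set.univ + ENNReal.ofReal (T' ^ ((n : ℝ) / 2)) *
        IS C (G t₀) (ν t₀) ((n : ℝ) / 2)) := by
    intro t ht ht'
    have := Mono.vol_le part (LapX.main part) (H.Evol.main H.B25a.main) (by omega) hG' hνG'
      (fun t h1 h2 => hdt t (by linarith) (by linarith)) le_rfl
      (show t₀ ≤ t + t₀ by linarith) (by linarith) (inv_pos.2 hT')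
    rw [hG0] at this
    refine this.trans ?_
    rw [Real.inv_rpow hT'.le, Real.rpow_neg hT'.le, inv_inv]
    gcongr
    rw [add_sub_cancel_right, inv_mul_le_iff₀ hT']
    linarith
  have h := movingX C hinf hn F hFam T' hT' (fun _ _ => 0) (fun t m => -scM C (F t) m)
    continuous_const ?_ ?_ ?_ (fun t => ν (t + t₀)) hνF
    (ENNReal.ofReal ((((n : ℝ) - 2)⁻¹) ^ ((n : ℝ) / 2)) * IS C (G t₀) (ν t₀) ((n : ℝ) / 2))
    (ENNReal.ofReal (Real.exp 1) *
      (ν t₀ Set.univ + ENNReal.ofReal (T' ^ ((n : ℝ) / 2)) *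
        IS C (G t₀) (ν t₀) ((n : ℝ) / 2))) ?_ hvol (1 / 2) (by norm_num) (by norm_num)
  · -- the arithmetic
    set S := IS C (G t₀) (ν t₀) ((n : ℝ) / 2) with hS
    set κ := (n : ℝ) - 2 + √n with hκ
    have e0 : (1 : ℝ) - 1 / 2 = 1 / 2 := by norm_num
    have e1 : 2 * (1 / 2 : ℝ) * T' = T' := by ring
    rw [e0, e1] at h
    have h' : svX C ≤ ENNReal.ofReal 2 * (ENNReal.ofReal (κ ^ n) *
        (ENNReal.ofReal (((n : ℝ) - 2)⁻¹ ^ ((n : ℝ) / 2)) * S) +
        ENNReal.ofReal (((n : ℝ) - 1) * (1 / 2) * (n * κ ^ 2 / T') ^ ((n : ℝ) / 2)) *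
        (ENNReal.ofReal (Real.exp 1) *
          (ν t₀ Set.univ + ENNReal.ofReal (T' ^ ((n : ℝ) / 2)) * S))) := by
      calc svX C = ENNReal.ofReal 2 * (ENNReal.ofReal (1 / 2) * svX C) := by
            rw [← mul_assoc, ← ENNReal.ofReal_mul (by norm_num)]
            norm_num
        _ ≤ _ := by gcongr
    refine h'.trans ?_
    have hn1 : 0 ≤ (n : ℝ) - 1 := by linarith
    have hz : 0 ≤ (n * κ ^ 2 / T') ^ ((n : ℝ) / 2) := by positivity
    set z := (n * κ ^ 2 / T') ^ ((n : ℝ) / 2) with hzd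
    have hT'p : 0 ≤ T' ^ ((n : ℝ) / 2) := by positivity
    have hw : 0 ≤ ((n : ℝ) - 2)⁻¹ ^ ((n : ℝ) / 2) := by positivity
    have k1 : ENNReal.ofReal 2 * (ENNReal.ofReal (κ ^ n) *
        (ENNReal.ofReal (((n : ℝ) - 2)⁻¹ ^ ((n : ℝ) / 2)) * S) +
        ENNReal.ofReal (((n : ℝ) - 1) * (1 / 2) * z) *
        (ENNReal.ofReal (Real.exp 1) *
          (ν t₀ Set.univ + ENNReal.ofReal (T' ^ ((n : ℝ) / 2)) * S))) =
        ENNReal.ofReal (2 * (κ ^ n * ((n : ℝ) - 2)⁻¹ ^ ((n : ℝ) / 2)) +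
          (((n : ℝ) - 1) * z) * Real.exp 1 * T' ^ ((n : ℝ) / 2)) * S +
        ENNReal.ofReal ((((n : ℝ) - 1) * z) * Real.exp 1) * ν t₀ Set.univ := by
      have f1 : (((n : ℝ) - 1) * z) = 2 * (((n : ℝ) - 1) * (1 / 2) * z) := by ring
      rw [f1]
      have f2 : 0 ≤ ((n : ℝ) - 1) * (1 / 2) * z := by positivity
      generalize ((n : ℝ) - 1) * (1 / 2) * z = u at f2 ⊢
      have f3 := Real.exp_pos 1
      generalize Real.exp 1 = x at f3 ⊢
      generalize T' ^ ((n : ℝ) / 2) = y at hT'p ⊢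
      generalize ((n : ℝ) - 2)⁻¹ ^ ((n : ℝ) / 2) = w at hw ⊢
      have f4 : 0 ≤ κ ^ n := by positivity
      generalize κ ^ n = r at f4 ⊢
      have g1 : ENNReal.ofReal (2 * (r * w) + 2 * u * x * y) = ENNReal.ofReal 2 *
          (ENNReal.ofReal r * ENNReal.ofReal w) + ENNReal.ofReal 2 * ENNReal.ofReal u *
          ENNReal.ofReal x * ENNReal.ofReal y := by
        rw [ENNReal.ofReal_add (by positivity) (by positivity),
          ENNReal.ofReal_mul (p := 2) (by norm_num), ENNReal.ofReal_mul f4,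
          ENNReal.ofReal_mul (p := 2 * u * x) (by positivity),
          ENNReal.ofReal_mul (p := 2 * u) (by positivity),
          ENNReal.ofReal_mul (p := 2) (by norm_num)]
      have g2 : ENNReal.ofReal (2 * u * x) = ENNReal.ofReal 2 * ENNReal.ofReal u *
          ENNReal.ofReal x := by
        rw [ENNReal.ofReal_mul (p := 2 * u) (by positivity),
          ENNReal.ofReal_mul (p := 2) (by norm_num)]
      rw [g1, g2]
      ring
    rw [k1]
    have k2 := ENNReal.ofReal_le_ofReal (coef_sc hn hT')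
    have k3 := ENNReal.ofReal_le_ofReal (coef_vol hn hT')
    rw [ENNReal.ofReal_mul (cn_pos hn).le] at k3
    refine (add_le_add (mul_le_mul' k2 le_rfl) (mul_le_mul' k3 le_rfl)).trans (le_of_eq ?_)
    ring
  · refine Final.continuous_M C fun i => ?_
    simp only [Final.scM_eq (hFam.met _)]
    exact (hsc i).continuous.neg
  · intro t ht ht' i y w
    have : ∀ a b, H.ric (F t i) y a b + 1 / 2 * H.dtG (fun s => F s i) t y a b = 0 :=
      fun a b => by rw [hdF t ht ht']; ring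
    simp only [this, mul_zero, Finset.sum_const_zero, neg_zero, zero_mul, le_refl]
  · intro t ht ht' i y
    rw [Final.scM_eq (hFam.met t)]
    unfold H.trh
    simp only [hdF t ht ht']
    refine le_of_eq ?_
    unfold H.scal
    rw [Finset.mul_sum, ← Finset.sum_neg_distrib]
    refine Finset.sum_congr rfl fun i _ => ?_
    rw [Finset.mul_sum, ← Finset.sum_neg_distrib]
    exact Finset.sum_congr rfl fun j _ => by ring
  · intro t ht ht'
    refine le_trans (le_of_eq ?_) (mul_le_mul_right (hmono t ht ht') _)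
    unfold IS
    rw [← lintegral_const_mul' _ _ ENNReal.ofReal_ne_top]
    refine lintegral_congr fun m => ?_
    rw [← ENNReal.ofReal_mul (by positivity), ← Real.mul_rpow (by positivity) (le_max_left _ _),
      mul_max_of_nonneg _ _ (by positivity), mul_zero, zero_add, div_eq_inv_mul]

/-- Ricci flow on a finite time interval. -/
theorem ricciFlowX (C : Cov n M X Γ I) (hinf : ∃ s : ℕ → X, MT.Dist Γ s) (hn : 4 ≤ n)
    (G : ℝ → I → E n → Matrix (Fin n) (Fin n) ℝ) {T : ℝ} (hT : 0 < T) (hG : RFXT C G T)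
    (ν₀ : Measure M) (hν₀ : VolM C (G 0) ν₀) :
    svX C ≤ ENNReal.ofReal (cn n) * (IS C (G 0) ν₀ ((n : ℝ) / 2) +
      ENNReal.ofReal (T ^ (-((n : ℝ) / 2))) * ν₀ Set.univ) := by
  classical
  -- volume measures
  have hex : ∀ t, ∃ ν : Measure M, (0 ≤ t → t < T → VolM C (G t) ν) ∧ (t = 0 → ν = ν₀) := by
    intro t
    by_cases h0 : t = 0
    · subst h0
      exact ⟨ν₀, fun _ _ => hν₀, fun _ => rfl⟩
    by_cases ht : 0 ≤ t
    · by_cases ht' : t < T
      · let : MeasurableSpace X := borel X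
        have : BorelSpace X := ⟨rfl⟩
        obtain ⟨ν, hν⟩ := (hb.vol n M X Γ I C (G t) (hG.met t ht ht')).2.2.1
        exact ⟨ν, fun _ _ => hν, fun h => absurd h h0⟩
      · exact ⟨0, fun _ h => absurd h ht', fun h => absurd h h0⟩
    · exact ⟨0, fun h => absurd h ht, fun h => absurd h h0⟩
  choose ν hν hνz using hex
  have hfin : IsFiniteMeasure ν₀ := IntM.isFiniteMeasure (hG.met 0 le_rfl hT) hν₀
  set S := IS C (G 0) ν₀ ((n : ℝ) / 2) with hS
  -- for smaller `T`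
  have key : ∀ T', 0 < T' → T' < T → svX C ≤ ENNReal.ofReal (cn n) * (S +
      ENNReal.ofReal (T' ^ (-((n : ℝ) / 2))) * ν₀ Set.univ) := by
    intro T' hT' hT'T
    refine ENNReal.le_of_forall_pos_le_add fun δ hδ _ => ?_
    set c : ENNReal := ENNReal.ofReal (cn n) with hcd
    set d : ENNReal := ENNReal.ofReal (T' ^ (-((n : ℝ) / 2))) with hdd
    have hc1 : c * (1 + d) + 1 ≠ ⊤ := ENNReal.add_ne_top.2 ⟨ENNReal.mul_ne_top
      ENNReal.ofReal_ne_top (ENNReal.add_ne_top.2 ⟨ENNReal.one_ne_top, ENNReal.ofReal_ne_top⟩),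
      ENNReal.one_ne_top⟩
    have hδ' : 0 < (δ : ENNReal) / (c * (1 + d) + 1) :=
      ENNReal.div_pos (by exact_mod_cast hδ.ne') hc1
    obtain ⟨t₁, ht₁, h⟩ := zero n M X Γ I C G ν hT hG hν ((n : ℝ) / 2) (by positivity) _ hδ'
    obtain ⟨t₂, ht₂, h2⟩ := zero n M X Γ I C G ν hT hG hν 0 le_rfl _ hδ'
    obtain ⟨t₀, h0, h01, h02, h03⟩ : ∃ t₀ : ℝ, 0 < t₀ ∧ t₀ < t₁ ∧ t₀ < t₂ ∧ t₀ + T' < T := by
      refine ⟨min (min (t₁ / 2) (t₂ / 2)) ((T - T') / 2), ?_, ?_, ?_, ?_⟩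
      · have : 0 < T - T' := by linarith
        positivity
      · have := (min_le_left (min (t₁ / 2) (t₂ / 2)) ((T - T') / 2)).trans (min_le_left _ _)
        linarith
      · have := (min_le_left (min (t₁ / 2) (t₂ / 2)) ((T - T') / 2)).trans (min_le_right _ _)
        linarith
      · have := min_le_right (min (t₁ / 2) (t₂ / 2)) ((T - T') / 2)
        linarith
    refine (keyX C hinf hn G hG ν hν h0 hT' h03).trans ?_
    have h' := h t₀ h0.le h01
    have h2' := h2 t₀ h0.le h02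
    rw [IS_zero, IS_zero, hνz 0 rfl] at h2'
    rw [hνz 0 rfl] at h'
    set e := (δ : ENNReal) / (c * (1 + d) + 1) with he
    calc c * (IS C (G t₀) (ν t₀) ((n : ℝ) / 2) + d * ν t₀ Set.univ)
        ≤ c * ((S + e) + d * (ν₀ Set.univ + e)) := by gcongr
      _ = c * (S + d * ν₀ Set.univ) + (c * (1 + d)) * e := by ring
      _ ≤ c * (S + d * ν₀ Set.univ) + (c * (1 + d) + 1) * e := by
          gcongr
          exact le_self_add
      _ = _ := by
          rw [he, ENNReal.mul_div_cancel (by simp) hc1]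
  -- the limit
  have hcont : Tendsto (fun T' : ℝ => ENNReal.ofReal (cn n) * (S +
      ENNReal.ofReal (T' ^ (-((n : ℝ) / 2))) * ν₀ Set.univ)) (𝓝[<] T)
      (𝓝 (ENNReal.ofReal (cn n) * (S + ENNReal.ofReal (T ^ (-((n : ℝ) / 2))) *
        ν₀ Set.univ))) := by
    have h1 : Tendsto (fun T' : ℝ => T' ^ (-((n : ℝ) / 2))) (𝓝[<] T)
        (𝓝 (T ^ (-((n : ℝ) / 2)))) :=
      (Real.continuousAt_rpow_const _ _ (Or.inl hT.ne')).tendsto.mono_left nhdsWithin_le_nhds
    have h2 := (ENNReal.continuous_ofReal.tendsto _).comp h1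
    refine ENNReal.Tendsto.const_mul ?_ (Or.inr ENNReal.ofReal_ne_top)
    refine Tendsto.add tendsto_const_nhds ?_
    exact ENNReal.Tendsto.mul_const h2 (Or.inr (measure_ne_top _ _))
  refine ge_of_tendsto hcont ?_
  have : ∀ᶠ T' in 𝓝[<] T, 0 < T' :=
    (eventually_nhdsWithin_of_eventually_nhds (lt_mem_nhds hT))
  filter_upwards [this, self_mem_nhdsWithin] with T' h1 h2
  exact key T' h1 h2

end Vale.Agent.P223.H399
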