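import Vale.Agent.P223.X.MvU
import Vale.Agent.P223.H399.FinalT

/-! Theorems for closed manifolds with an atlas: finite time intervals. -/

namespace Vale.Agent.P223.H399

open scoped ContDiff
open MeasureTheory Vale.Agent.P223.X Vale.Agent.P223.H

variable {n : ℕ} {M : Type} [TopologicalSpace M] {c : M → J.Ch n M} [CompactSpace M] [T2Space M]
  [ConnectedSpace M] [MeasurableSpace M] [BorelSpace M]

/-- moving metrics -/
theorem movingM (hn : 4 ≤ n) (hc : J.Atl c) (T : ℝ) (hT : 0 < T)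
    (g : ℝ → M → J.Mtx n) (μ : ℝ → Measure M) (hg : J.Fam c g) (ρ σ : ℝ → M → ℝ)
    (hρ : Continuous fun p : ℝ × M => ρ p.1 p.2) (hσ : Continuous fun p : ℝ × M => σ p.1 p.2)
    (B V : ENNReal) (h : ∀ t, 0 ≤ t → t ≤ T → J.Vol c (g t) (μ t) ∧ J.Mv c g (ρ t) (σ t) t ∧
      J.L n (μ t) (fun p => max 0 (ρ t p + σ t p / ((n : ℝ) - 2))) ≤ B ∧ μ t Set.univ ≤ V)
    (θ : ℝ) (hθ : 0 < θ) (hθ1 : θ < 1) :
    ENNReal.ofReal (1 - θ) * J.sv c ≤ ENNReal.ofReal (J.kap n ^ n) * B +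
      ENNReal.ofReal (((n : ℝ) - 1) * θ * (n * J.kap n ^ 2 / (2 * θ * T)) ^ ((n : ℝ) / 2)) * V := by
  obtain ⟨d⟩ := FinalM.exists_data hu (by omega) c hc
  refine (mul_le_mul' le_rfl (hu.sv n M d.X d.Γ d.I c d.B d.C hc d.hCB)).trans ?_
  have hM := hu.met n M d.X d.Γ d.I c d.B d.C hc d.hCB
  refine movingX d.C d.inf hn (fun t => d.B.G (g t)) (hM.2.1 g hg) T hT ρ σ hρ hσ ?_ ?_ μ
    (fun t ht ht' => hu.vol n M d.X d.Γ d.I c d.B d.C (g t) (μ t) hc d.hCB (hg.met t)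
      (h t ht ht').1) B V
    (fun t ht ht' => (h t ht ht').2.2.1) (fun t ht ht' => (h t ht ht').2.2.2) θ hθ hθ1
  · intro t ht ht' i y w
    obtain ⟨h1, h2, -, -⟩ := hu.ric n M d.I c d.B (g t) hc (hg.met t)
    obtain ⟨h3, h4⟩ := FinalM.coord hc d.B i y
    have h5 := ((h t ht ht').2.1 (d.B.a i) _ h3).1 (d.B.D i y w)
    rw [h4, ← h1, ← d.hCB] at h5
    refine h5.trans (le_of_eq ?_)
    have e1 : ∀ (A A' : Fin n → Fin n → ℝ) (v : E n),
        J.bil (fun i j => A i j + A' i j) v v = J.bil A v v + J.bil A' v v := by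
      intro A A' v
      unfold J.bil
      simp only [mul_add, Finset.sum_add_distrib]
    have e2 : (∑ a, ∑ b, w a * w b * (H.ric (d.B.G (g t) i) y a b +
        1 / 2 * H.dtG (fun s => d.B.G (g s) i) t y a b)) =
        J.bil (H.ric (d.B.G (g t) i) y) w w +
          J.bil (fun a b => 1 / 2 * H.dtG (fun s => d.B.G (g s) i) t y a b) w w := by
      rw [← e1]; rfl
    rw [e2, e1, h2]
    congr 1
    unfold J.bil Box.D
    simp only [MvU.dtG_G]
    exact Finset.sum_congr rfl fun k _ => Finset.sum_congr rfl fun l _ => by ring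
  · intro t ht ht' i y
    obtain ⟨h3, h4⟩ := FinalM.coord hc d.B i y
    have h5 := ((h t ht ht').2.1 (d.B.a i) _ h3).2
    rw [h4, ← d.hCB] at h5
    refine le_trans (le_of_eq ?_) h5
    unfold H.trh
    congr 1
    have hdet : IsUnit (g t (d.B.a i) (d.B.x i y)).det := by
      have := (hg.met t (d.B.a i) _ h3).2.1.det_pos
      rw [h4] at this
      exact this.ne'.isUnit
    refine Finset.sum_congr rfl fun k _ => Finset.sum_congr rfl fun l _ => ?_
    rw [MvU.inv_G d.B i y hdet, MvU.dtG_G]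
    have hk := (RicU.dth_pos (d.B.pos i) (y k)).ne'
    have hl := (RicU.dth_pos (d.B.pos i) (y l)).ne'
    field_simp

/-- Ricci flow -/
theorem ricciFlowM (hn : 4 ≤ n) (hc : J.Atl c) {T : ℝ} (hT : 0 < T)
    (g : ℝ → M → J.Mtx n) (μ : Measure M) (hg : J.RFT c g T) (hμ : J.Vol c (g 0) μ) :
    J.sv c ≤ ENNReal.ofReal (3 * n * (n * J.kap n ^ 2) ^ ((n : ℝ) / 2)) *
      (J.L n μ (J.sn c (g 0)) + ENNReal.ofReal (T ^ (-((n : ℝ) / 2))) * μ Set.univ) := by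
  obtain ⟨d⟩ := FinalM.exists_data hu (by omega) c hc
  refine (hu.sv n M d.X d.Γ d.I c d.B d.C hc d.hCB).trans ?_
  have h := ricciFlowX d.C d.inf hn (fun t => d.B.G (g t)) hT (rfXT hc d.hCB hu.ric hg) μ
    (hu.vol n M d.X d.Γ d.I c d.B d.C (g 0) μ hc d.hCB (hg.met 0 le_rfl hT) hμ)
  rw [FinalM.IS_eq hu hc d (hg.met 0 le_rfl hT)] at h
  exact h

omit [TopologicalSpace M] [CompactSpace M] [T2Space M] [ConnectedSpace M] [BorelSpace M] in
theorem L_const (μ : Measure M) (s : ℝ) :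
    J.L n μ (fun _ => s) = ENNReal.ofReal (s ^ ((n : ℝ) / 2)) * μ Set.univ := by
  unfold J.L
  rw [lintegral_const]

/-- lower bound of the scalar curvature -/
theorem scalM (hn : 4 ≤ n) (hc : J.Atl c) {T : ℝ} (hT : 0 < T)
    (g : ℝ → M → J.Mtx n) (μ : Measure M) (hg : J.RFT c g T) (hμ : J.Vol c (g 0) μ) (s : ℝ)
    (hs : 0 ≤ s) (h : ∀ p, -s ≤ J.scal (g 0 p) (c p p)) :
    J.sv c ≤ ENNReal.ofReal (3 * n * (n * J.kap n ^ 2) ^ ((n : ℝ) / 2) *
      (s ^ ((n : ℝ) / 2) + T ^ (-((n : ℝ) / 2)))) * μ Set.univ := by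
  refine (ricciFlowM hn hc hT g μ hg hμ).trans ?_
  have hκ : 0 ≤ J.kap n := Final.kap_nonneg hn
  have h1 : J.L n μ (J.sn c (g 0)) ≤ J.L n μ (fun _ => s) := by
    refine lintegral_mono fun p => ENNReal.ofReal_le_ofReal ?_
    refine Real.rpow_le_rpow (le_max_left _ _) (max_le hs ?_) (by positivity)
    have := h p
    linarith
  rw [L_const] at h1
  calc _ ≤ ENNReal.ofReal (3 * n * (n * J.kap n ^ 2) ^ ((n : ℝ) / 2)) *
      (ENNReal.ofReal (s ^ ((n : ℝ) / 2)) * μ Set.univ +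
        ENNReal.ofReal (T ^ (-((n : ℝ) / 2))) * μ Set.univ) := by gcongr
    _ = _ := by
      rw [← add_mul, ← ENNReal.ofReal_add (by positivity) (by positivity), ← mul_assoc,
        ← ENNReal.ofReal_mul (by positivity)]

/-- conformal metrics -/
theorem confM (hn : 4 ≤ n) (hc : J.Atl c) {T : ℝ} (hT : 0 < T)
    (g : ℝ → M → J.Mtx n) (μ : Measure M) (hg : J.RFT c g T) (hμ : J.Vol c (g 0) μ) (s : ℝ)
    (hs : 0 < s) (h : ∀ p, J.scal (g 0 p) (c p p) = -s) (f : M → ℝ) (μ' : Measure M)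
    (hf : J.Sm c f) (hμ' : J.Vol c (J.conf c f (g 0)) μ') :
    J.sv c ≤ ENNReal.ofReal (3 * n * (n * J.kap n ^ 2) ^ ((n : ℝ) / 2) *
      (1 + (s * T) ^ (-((n : ℝ) / 2)))) * J.L n μ' (J.sn c (J.conf c f (g 0))) := by
  have hκ : 0 ≤ J.kap n := Final.kap_nonneg hn
  have h1 := FinalM.conf_le hb hu hn hc (g 0) μ (hg.met 0 le_rfl hT) hμ s hs h f μ' hf hμ'
  refine (scalM hn hc hT g μ hg hμ s hs.le fun p => (h p).ge).trans ?_
  refine le_trans ?_ (mul_le_mul' le_rfl h1)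
  have h2 : J.sn c (g 0) = fun _ => s := by
    funext p
    unfold J.sn
    rw [h, neg_neg, max_eq_right hs.le]
  rw [h2, L_const, ← mul_assoc, ← ENNReal.ofReal_mul (by positivity)]
  refine le_of_eq ?_
  congr 2
  rw [Real.mul_rpow hs.le hT.le]
  have h3 : s ^ (-((n : ℝ) / 2)) * s ^ ((n : ℝ) / 2) = 1 := by
    rw [← Real.rpow_add hs]; simp
  linear_combination (-(3 * n * (n * J.kap n ^ 2) ^ ((n : ℝ) / 2)) *
    T ^ (-((n : ℝ) / 2))) * h3

end Vale.Agent.P223.H399
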